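import Vale.Agent.Lib.P346.Deg

/-! Razborov's approximation of products over `ZMod 2`. -/

namespace Vale.Agent.P346

open Finset

lemma F2_cases (a : F2) : a = 0 ∨ a = 1 := by revert a; decide

lemma F2_ne_zero {a : F2} (h : a ≠ 0) : a = 1 := (F2_cases a).resolve_left h

lemma F2_ne_one {a : F2} (h : a ≠ 1) : a = 0 := (F2_cases a).resolve_right h

section halving

variable {X ι : Type} [DecidableEq ι]

/-- toggling an element -/
def tog (m : ι) (R : Finset ι) : Finset ι := if m ∈ R then R.erase m else insert m R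

lemma tog_tog (m : ι) (R : Finset ι) : tog m (tog m R) = R := by
  unfold tog
  by_cases h : m ∈ R
  · simp [h, Finset.insert_erase h]
  · simp [h, Finset.erase_insert h]

lemma tog_subset {m : ι} {R s : Finset ι} (hm : m ∈ s) (hR : R ⊆ s) : tog m R ⊆ s := by
  unfold tog
  split_ifs
  · exact (Finset.erase_subset _ _).trans hR
  · exact Finset.insert_subset hm hR

lemma sum_tog (g : ι → F2) {m : ι} (hg : g m = 1) (R : Finset ι) :
    ∑ i ∈ tog m R, g i = 1 + ∑ i ∈ R, g i := by
  unfold tog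
  by_cases h : m ∈ R
  · rw [if_pos h, ← Finset.add_sum_erase _ _ h, hg, ← add_assoc, CharTwo.add_self_eq_zero, zero_add]
  · rw [if_neg h, Finset.sum_insert h, hg]

lemma card_even (s : Finset ι) (g : ι → F2) {m : ι} (hm : m ∈ s) (hg : g m = 1) :
    2 * (s.powerset.filter fun R => ∑ i ∈ R, g i = 0).card = 2 ^ s.card := by
  have h1 : (s.powerset.filter fun R => ∑ i ∈ R, g i = 0).card
      = (s.powerset.filter fun R => ¬ ∑ i ∈ R, g i = 0).card := by
    apply Finset.card_bij' (fun R _ => tog m R) (fun R _ => tog m R)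
    · intro R hR
      rw [mem_filter, mem_powerset] at hR ⊢
      refine ⟨tog_subset hm hR.1, ?_⟩
      rw [sum_tog g hg, hR.2]; decide
    · intro R hR
      rw [mem_filter, mem_powerset] at hR ⊢
      refine ⟨tog_subset hm hR.1, ?_⟩
      rw [sum_tog g hg, F2_ne_zero hR.2]; decide
    · intro R _; exact tog_tog m R
    · intro R _; exact tog_tog m R
  rw [two_mul]
  nth_rewrite 2 [h1]
  rw [Finset.card_filter_add_card_filter_not, Finset.card_powerset]

/-- one halving step -/
lemma halve (s : Finset ι) (v : ι → X → F2) (B : Finset X)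
    (hB : ∀ x ∈ B, ∃ m ∈ s, v m x = 0) :
    ∃ R ⊆ s, 2 * (B.filter fun x => ∑ m ∈ R, (1 + v m x) = 0).card ≤ B.card := by
  classical
  by_contra hcon
  push Not at hcon
  have h1 : ∑ R ∈ s.powerset, B.card < ∑ R ∈ s.powerset,
      2 * (B.filter fun x => ∑ m ∈ R, (1 + v m x) = 0).card := by
    apply Finset.sum_lt_sum_of_nonempty ⟨∅, by simp⟩
    intro R hR
    exact hcon R (mem_powerset.mp hR)
  have h2 : ∑ R ∈ s.powerset, 2 * (B.filter fun x => ∑ m ∈ R, (1 + v m x) = 0).card
      = ∑ x ∈ B, 2 * (s.powerset.filter fun R => ∑ m ∈ R, (1 + v m x) = 0).card := by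
    rw [← Finset.mul_sum, ← Finset.mul_sum]
    congr 1
    simp only [Finset.card_filter]
    exact Finset.sum_comm
  rw [h2] at h1
  have h3 : ∀ x ∈ B, 2 * (s.powerset.filter fun R => ∑ m ∈ R, (1 + v m x) = 0).card
      = 2 ^ s.card := by
    intro x hx
    obtain ⟨m, hm, h0⟩ := hB x hx
    exact card_even s (fun m => 1 + v m x) hm (by simp [h0])
  rw [Finset.sum_congr rfl h3, Finset.sum_const, Finset.sum_const, Finset.card_powerset,
    smul_eq_mul, smul_eq_mul, mul_comm] at h1
  exact lt_irrefl _ h1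

end halving

theorem and_approx {X ι : Type} [Fintype X] [DecidableEq X] [DecidableEq ι]
    (s : Finset ι) (v : ι → X → F2) (r : ℕ) :
    ∃ R : Fin r → Finset ι, (∀ t, R t ⊆ s) ∧
      (Finset.univ.filter fun x => ∏ t, (1 + ∑ m ∈ R t, (1 + v m x)) ≠ ∏ m ∈ s, v m x).card * 2 ^ r
        ≤ Fintype.card X := by
  -- the bad set for an arbitrary list
  have key : ∀ r : ℕ, ∃ R : Fin r → Finset ι, (∀ t, R t ⊆ s) ∧
      (Finset.univ.filter fun x => (∃ m ∈ s, v m x = 0) ∧
        ∀ t, ∑ m ∈ R t, (1 + v m x) = 0).card * 2 ^ r ≤ Fintype.card X := by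
    intro r
    induction r with
    | zero =>
      refine ⟨fun _ => ∅, by simp, ?_⟩
      rw [pow_zero, mul_one]
      exact Finset.card_le_univ _
    | succ r ih =>
      obtain ⟨R, hR, hc⟩ := ih
      obtain ⟨R', hR', hc'⟩ := halve s v (Finset.univ.filter fun x => (∃ m ∈ s, v m x = 0) ∧
        ∀ t, ∑ m ∈ R t, (1 + v m x) = 0) (fun x hx => (mem_filter.mp hx).2.1)
      refine ⟨Fin.cons R' R, ?_, ?_⟩
      · intro t
        refine Fin.cases ?_ (fun i => ?_) t
        · simpa using hR'
        · simpa using hR i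
      · have hsub : (Finset.univ.filter fun x => (∃ m ∈ s, v m x = 0) ∧
            ∀ t, ∑ m ∈ (Fin.cons R' R : Fin (r + 1) → Finset ι) t, (1 + v m x) = 0)
            ⊆ (Finset.univ.filter fun x => (∃ m ∈ s, v m x = 0) ∧
              ∀ t, ∑ m ∈ R t, (1 + v m x) = 0).filter
                fun x => ∑ m ∈ R', (1 + v m x) = 0 := by
          intro x hx
          rw [mem_filter] at hx
          rw [mem_filter, mem_filter]
          refine ⟨⟨hx.1, hx.2.1, fun t => ?_⟩, ?_⟩
          · simpa using hx.2.2 t.succ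
          · simpa using hx.2.2 0
        have := Finset.card_le_card hsub
        calc _ ≤ _ * 2 ^ (r + 1) := Nat.mul_le_mul_right _ this
          _ = (2 * ((Finset.univ.filter fun x => (∃ m ∈ s, v m x = 0) ∧
              ∀ t, ∑ m ∈ R t, (1 + v m x) = 0).filter
                fun x => ∑ m ∈ R', (1 + v m x) = 0).card) * 2 ^ r := by ring
          _ ≤ _ := le_trans (Nat.mul_le_mul_right _ hc') hc
  obtain ⟨R, hR, hc⟩ := key r
  refine ⟨R, hR, le_trans (Nat.mul_le_mul_right _ (Finset.card_le_card ?_)) hc⟩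
  intro x hx
  rw [mem_filter] at hx ⊢
  refine ⟨hx.1, ?_⟩
  by_cases h0 : ∃ m ∈ s, v m x = 0
  · refine ⟨h0, fun t => ?_⟩
    by_contra ht
    apply hx.2
    obtain ⟨m, hm, hm0⟩ := h0
    rw [Finset.prod_eq_zero (Finset.mem_univ t) (by rw [F2_ne_zero ht]; decide),
      Finset.prod_eq_zero hm hm0]
  · exfalso
    push Not at h0
    apply hx.2
    have h1 : ∀ m ∈ s, v m x = 1 := fun m hm => F2_ne_zero (h0 m hm)
    rw [Finset.prod_eq_one h1]
    apply Finset.prod_eq_one
    intro t _
    have : ∑ m ∈ R t, (1 + v m x) = 0 := by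
      apply Finset.sum_eq_zero
      intro m hm
      rw [h1 m (hR t hm)]; decide
    rw [this, add_zero]

lemma F2_pow (a : F2) {n : ℕ} (hn : n ≠ 0) : a ^ n = a := by
  rcases F2_cases a with h | h
  · rw [h, zero_pow hn]
  · rw [h, one_pow]

lemma multiset_prod_eq {α : Type} [DecidableEq α] (s : Multiset α) (f : α → F2) :
    (s.map f).prod = ∏ j ∈ s.toFinset, f j := by
  rw [Finset.prod_multiset_map_count]
  apply Finset.prod_congr rfl
  intro j hj
  apply F2_pow
  rw [Multiset.mem_toFinset] at hj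
  exact Multiset.count_ne_zero.mpr hj

lemma const_mem {ι : Type} (D : ℕ) (c : F2) : (fun _ => c : Pt ι → F2) ∈ Deg ι D := by
  have : (fun _ => c : Pt ι → F2) = c • (1 : Pt ι → F2) := by
    funext x; simp
  rw [this]
  exact Submodule.smul_mem _ c (one_mem D)

lemma lin_mem {ι α : Type} {D : ℕ} (s : Finset α) (c : α → F2) (f : α → Pt ι → F2)
    (hf : ∀ j, f j ∈ Deg ι D) : (fun x => ∑ j ∈ s, c j * f j x) ∈ Deg ι D := by
  have : (fun x => ∑ j ∈ s, c j * f j x) = ∑ j ∈ s, c j • f j := by
    funext x; simp [Finset.sum_apply]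
  rw [this]
  exact Submodule.sum_mem _ fun j _ => Submodule.smul_mem _ _ (hf j)

/-- approximate product of functions of degree at most `D` -/
lemma prod_approx {α ι : Type} [Fintype ι] [DecidableEq ι] [DecidableEq α] {D : ℕ}
    (s : Finset α) (f : α → Pt ι → F2) (hf : ∀ j, f j ∈ Deg ι D) (r : ℕ) :
    ∃ p ∈ Deg ι (r * D), (univ.filter fun x => p x ≠ ∏ j ∈ s, f j x).card * 2 ^ r
      ≤ 2 ^ Fintype.card ι := by
  obtain ⟨R, _, hc⟩ := and_approx s (fun j (x : Pt ι) => f j x) r
  refine ⟨fun x => ∏ t, (1 + ∑ m ∈ R t, (1 + f m x)), ?_, ?_⟩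
  · have e : (fun x => ∏ t, (1 + ∑ m ∈ R t, (1 + f m x)))
        = ∏ t : Fin r, (fun x => (1 + ∑ m ∈ R t, (1 + f m x)) : Pt ι → F2) := by
      funext x; simp [Finset.prod_apply]
    rw [e]
    have h2 := Deg_prod (V := ι) (univ : Finset (Fin r)) D
      (fun t => (fun x => (1 + ∑ m ∈ R t, (1 + f m x)) : Pt ι → F2)) ?_
    · simpa using h2
    · intro t _
      have e2 : (fun x => (1 + ∑ m ∈ R t, (1 + f m x)) : Pt ι → F2)
          = 1 + ∑ m ∈ R t, (1 + f m) := by
        funext x; simp [Finset.sum_apply]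
      rw [e2]
      exact Submodule.add_mem _ (one_mem D) (Submodule.sum_mem _ fun m _ =>
        Submodule.add_mem _ (one_mem D) (hf m))
  · refine le_trans hc (le_of_eq ?_)
    simp [Pt, ZMod.card]

theorem circuit_approx {V ι : Type} [Fintype ι] [DecidableEq ι] (C : Circuit F2 V)
    (a : V → Pt ι → F2) (ha : ∀ v, a v ∈ Deg ι 1) (r : ℕ) :
    ∃ G ∈ Deg ι (r * r),
      (univ.filter fun x => G x ≠ MvPolynomial.eval (fun v => a v x) C.value).card * 2 ^ r ≤
        (C.n2 + C.n4) * 2 ^ Fintype.card ι := by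
  -- exact values
  set w0 : Fin C.n0 → Pt ι → F2 := fun i x => MvPolynomial.eval (fun v => a v x) (C.val0 i) with hw0
  set w1 : Fin C.n1 → Pt ι → F2 := fun i x => MvPolynomial.eval (fun v => a v x) (C.val1 i) with hw1
  have h0 : ∀ i, w0 i ∈ Deg ι 1 := by
    intro i
    simp only [hw0, Circuit.val0]
    rcases C.leaf i with v | c
    · simpa using ha v
    · simpa using const_mem 1 c
  have h1 : ∀ i, w1 i ∈ Deg ι 1 := by
    intro i
    have : w1 i = fun x => ∑ j ∈ C.in1 i, C.c1 i j * w0 j x := by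
      funext x
      simp [hw1, hw0, Circuit.val1]
    rw [this]
    exact lin_mem _ _ _ h0
  have h2 : ∀ i x, MvPolynomial.eval (fun v => a v x) (C.val2 i)
      = ∏ j ∈ (C.in2 i).toFinset, w1 j x := by
    intro i x
    rw [Circuit.val2, ← multiset_prod_eq, map_multiset_prod, Multiset.map_map]
    rfl
  choose p2 hp2 hc2 using fun i : Fin C.n2 => prod_approx ((C.in2 i).toFinset) w1 h1 r
  set w3 : Fin C.n3 → Pt ι → F2 := fun i x => ∑ j ∈ C.in3 i, C.c3 i j * p2 j x with hw3
  have h3 : ∀ i, w3 i ∈ Deg ι r := by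
    intro i
    refine lin_mem _ _ _ (fun j => ?_)
    simpa using hp2 j
  choose p4 hp4 hc4 using fun i : Fin C.n4 => prod_approx ((C.in4 i).toFinset) w3 h3 r
  refine ⟨fun x => ∑ j ∈ C.in5, C.c5 j * p4 j x, lin_mem _ _ _ hp4, ?_⟩
  -- the errors
  have hsub : (univ.filter fun x => (∑ j ∈ C.in5, C.c5 j * p4 j x)
      ≠ MvPolynomial.eval (fun v => a v x) C.value) ⊆
      (univ.biUnion fun i : Fin C.n2 => univ.filter fun x => p2 i x ≠ ∏ j ∈ (C.in2 i).toFinset, w1 j x)
      ∪ (univ.biUnion fun i : Fin C.n4 => univ.filter fun x => p4 i x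
        ≠ ∏ j ∈ (C.in4 i).toFinset, w3 j x) := by
    intro x hx
    rw [mem_filter] at hx
    by_contra hn
    rw [mem_union, mem_biUnion, mem_biUnion] at hn
    push Not at hn
    apply hx.2
    have g2 : ∀ i, p2 i x = ∏ j ∈ (C.in2 i).toFinset, w1 j x := by
      intro i
      have := hn.1 i (mem_univ _)
      rw [mem_filter] at this
      by_contra h
      exact this ⟨mem_univ _, h⟩
    have g4 : ∀ i, p4 i x = ∏ j ∈ (C.in4 i).toFinset, w3 j x := by
      intro i
      have := hn.2 i (mem_univ _)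
      rw [mem_filter] at this
      by_contra h
      exact this ⟨mem_univ _, h⟩
    have g3 : ∀ i, w3 i x = MvPolynomial.eval (fun v => a v x) (C.val3 i) := by
      intro i
      simp only [hw3, Circuit.val3, map_sum, map_mul, MvPolynomial.eval_C]
      apply Finset.sum_congr rfl
      intro j _
      rw [g2 j, h2 j x]
    have g5 : ∀ i, p4 i x = MvPolynomial.eval (fun v => a v x) (C.val4 i) := by
      intro i
      rw [g4 i, Circuit.val4, map_multiset_prod, Multiset.map_map, ← multiset_prod_eq]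
      congr 1
      apply Multiset.map_congr rfl
      intro j _
      exact g3 j
    simp only [Circuit.value, map_sum, map_mul, MvPolynomial.eval_C]
    apply Finset.sum_congr rfl
    intro j _
    rw [g5 j]
  calc _ ≤ _ * 2 ^ r := Nat.mul_le_mul_right _ (Finset.card_le_card hsub)
    _ ≤ ((∑ i : Fin C.n2, (univ.filter fun x => p2 i x ≠ ∏ j ∈ (C.in2 i).toFinset, w1 j x).card)
        + ∑ i : Fin C.n4, (univ.filter fun x => p4 i x
          ≠ ∏ j ∈ (C.in4 i).toFinset, w3 j x).card) * 2 ^ r := by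
      apply Nat.mul_le_mul_right
      refine le_trans (Finset.card_union_le _ _) (Nat.add_le_add ?_ ?_)
      · exact Finset.card_biUnion_le
      · exact Finset.card_biUnion_le
    _ ≤ _ := by
      rw [add_mul, add_mul, Finset.sum_mul, Finset.sum_mul]
      apply Nat.add_le_add
      · refine le_trans (Finset.sum_le_sum fun i _ => hc2 i) ?_
        simp
      · refine le_trans (Finset.sum_le_sum fun i _ => hc4 i) ?_
        simp

end Vale.Agent.P346
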