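import Vale.Agent.Lib.P346.Deg

/-! The block of variables: a nondegenerate form. -/

namespace Vale.Agent.P346

open Finset

variable {V : Type} [Fintype V] [DecidableEq V]

lemma F2_or (a : F2) : a = 0 ∨ a = 1 := by revert a; decide

/-- support of a point -/
def supp (x : Pt V) : Finset V := univ.filter fun i => x i ≠ 0

lemma wt_eq (x : Pt V) : wt x = (supp x).card := rfl

/-- zero set of a point -/
def zer (x : Pt V) : Finset V := univ.filter fun i => x i = 0

lemma zer_card (x : Pt V) : (zer x).card + wt x = Fintype.card V := by
  have := Finset.card_filter_add_card_filter_not (s := (univ : Finset V)) (fun i => x i = 0)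
  rw [Finset.card_univ] at this
  exact this

lemma zer_inj {x y : Pt V} (h : zer x = zer y) : x = y := by
  funext i
  have h1 : i ∈ zer x ↔ i ∈ zer y := by rw [h]
  simp only [zer, mem_filter, mem_univ, true_and] at h1
  rcases F2_or (x i) with hx | hx <;> rcases F2_or (y i) with hy | hy
  · rw [hx, hy]
  · exfalso; rw [hx, hy] at h1; simp at h1
  · exfalso; rw [hx, hy] at h1; simp at h1
  · rw [hx, hy]

lemma coord_mem (i : V) : (fun x : Pt V => x i) ∈ Deg V 1 := by
  have : (fun x : Pt V => x i) = mon {i} := by funext x; simp [mon]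
  rw [this]; exact mon_mem _ (by simp)

/-- the function `∏_{i ∈ S} (1 + x_i)` -/
lemma comon_mem (S : Finset V) {D : ℕ} (h : S.card ≤ D) :
    (∏ i ∈ S, (fun x : Pt V => 1 + x i)) ∈ Deg V D := by
  have := Deg_prod (V := V) S 1 (fun i => (fun x : Pt V => 1 + x i)) (fun i _ =>
    Submodule.add_mem _ (one_mem 1) (coord_mem i))
  exact Deg_mono (by omega) this

lemma comon_eval (S : Finset V) (x : Pt V) :
    (∏ i ∈ S, (fun x : Pt V => 1 + x i)) x = if S ⊆ zer x then 1 else 0 := by
  rw [Finset.prod_apply]
  split_ifs with h
  · apply Finset.prod_eq_one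
    intro i hi
    have := h hi
    simp only [zer, mem_filter, mem_univ, true_and] at this
    rw [this, add_zero]
  · obtain ⟨i, hi, hix⟩ := Finset.not_subset.1 h
    simp only [zer, mem_filter, mem_univ, true_and] at hix
    apply Finset.prod_eq_zero hi
    rcases F2_or (x i) with h0 | h1
    · exact absurd h0 hix
    · rw [h1]; decide

/-- interpolation on the upper layers -/
lemma interp (a : ℕ) (y : Pt V) (hy : Fintype.card V ≤ wt y + a) :
    ∃ g ∈ Deg V a, ∀ x : Pt V, Fintype.card V ≤ wt x + a → g x = if x = y then 1 else 0 := by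
  refine ⟨∑ S ∈ (univ : Finset (Finset V)).filter (fun S => zer y ⊆ S ∧ S.card ≤ a),
    ∏ i ∈ S, (fun x : Pt V => 1 + x i), ?_, ?_⟩
  · apply Submodule.sum_mem
    intro S hS
    simp only [mem_filter] at hS
    exact comon_mem S hS.2.2
  · intro x hx
    rw [Finset.sum_apply]
    simp only [comon_eval]
    rw [← Finset.sum_filter, Finset.filter_filter]
    have hset : (univ : Finset (Finset V)).filter
        (fun S => (zer y ⊆ S ∧ S.card ≤ a) ∧ S ⊆ zer x) = Finset.Icc (zer y) (zer x) := by
      ext S
      simp only [mem_filter, mem_univ, true_and, Finset.mem_Icc]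
      constructor
      · rintro ⟨⟨h1, _⟩, h2⟩; exact ⟨h1, h2⟩
      · rintro ⟨h1, h2⟩
        refine ⟨⟨h1, ?_⟩, h2⟩
        have := Finset.card_le_card h2
        have := zer_card x
        omega
    rw [hset, Finset.sum_const, nsmul_eq_mul, mul_one]
    by_cases hsub : zer y ⊆ zer x
    · rw [Finset.card_Icc_finset hsub]
      split_ifs with hxy
      · subst hxy; simp
      · have hne : zer y ≠ zer x := fun h => hxy (zer_inj h).symm
        have hlt : (zer y).card < (zer x).card := Finset.card_lt_card
          (Finset.ssubset_iff_subset_ne.2 ⟨hsub, hne⟩)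
        obtain ⟨k, hk⟩ : ∃ k, (zer x).card - (zer y).card = k + 1 :=
          ⟨(zer x).card - (zer y).card - 1, by omega⟩
        rw [hk, pow_succ]
        push_cast
        have : (2 : F2) = 0 := by decide
        rw [this, mul_zero]
    · have : Finset.Icc (zer y) (zer x) = ∅ := by
        rw [Finset.Icc_eq_empty_iff]
        exact hsub
      rw [this]
      have hxy : x ≠ y := fun h => hsub (by rw [h])
      simp [hxy]

/-- a function of degree at most `a` vanishing on the upper layers is zero -/
lemma eq_zero_of_upper {a : ℕ} {h : Pt V → F2} (hh : h ∈ Deg V a)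
    (hv : ∀ x : Pt V, Fintype.card V ≤ wt x + a → h x = 0) : h = 0 := by
  -- downward induction on the weight
  have key : ∀ (m : ℕ) (y : Pt V), Fintype.card V ≤ wt y + m → h y = 0 := by
    intro m
    induction m with
    | zero =>
      intro y hy
      exact hv y (by omega)
    | succ m ih =>
      intro y hy
      by_cases hya : Fintype.card V ≤ wt y + a
      · exact hv y hya
      · push Not at hya
        have hs := sum_eq_zero (V := V) (D := a + wt y) (by omega)
          (Deg_mul hh (mon_mem (supp y) (le_of_eq (wt_eq y).symm)))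
        rw [← Finset.add_sum_erase _ _ (Finset.mem_univ y)] at hs
        have h1 : (h * mon (supp y)) y = h y := by
          have : mon (supp y) y = 1 := by
            apply Finset.prod_eq_one
            intro i hi
            simp only [supp, mem_filter, mem_univ, true_and] at hi
            rcases F2_or (y i) with h0 | h1
            · exact absurd h0 hi
            · exact h1
          rw [Pi.mul_apply, this, mul_one]
        have h2 : ∑ x ∈ univ.erase y, (h * mon (supp y)) x = 0 := by
          apply Finset.sum_eq_zero
          intro x hx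
          rw [Pi.mul_apply]
          by_cases hsub : supp y ⊆ supp x
          · have hne : supp y ≠ supp x := by
              intro heq
              apply (Finset.mem_erase.1 hx).1
              apply zer_inj
              ext i
              have : i ∈ supp y ↔ i ∈ supp x := by rw [heq]
              simp only [supp, mem_filter, mem_univ, true_and] at this
              simp only [zer, mem_filter, mem_univ, true_and]
              tauto
            have hlt := Finset.card_lt_card (Finset.ssubset_iff_subset_ne.2 ⟨hsub, hne⟩)
            rw [ih x (by rw [wt_eq] at hy ⊢; omega), zero_mul]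
          · obtain ⟨i, hi, hix⟩ := Finset.not_subset.1 hsub
            have : mon (supp y) x = 0 := by
              apply Finset.prod_eq_zero hi
              simpa [supp] using hix
            rw [this, mul_zero]
        rw [h1, h2, add_zero] at hs
        exact hs
  funext y
  exact key (Fintype.card V) y (by omega)

/-- the space `W` -/
def WW (V : Type) [Fintype V] (a lo hi : ℕ) : Submodule F2 (Pt V → F2) where
  carrier := {h | h ∈ Deg V a ∧ ∀ x, (wt x < lo ∨ hi ≤ wt x) → h x = 0}
  add_mem' := by
    rintro f g ⟨hf, hf'⟩ ⟨hg, hg'⟩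
    exact ⟨Submodule.add_mem _ hf hg, fun x hx => by simp [hf' x hx, hg' x hx]⟩
  zero_mem' := ⟨Submodule.zero_mem _, fun x _ => rfl⟩
  smul_mem' := by
    rintro c f ⟨hf, hf'⟩
    exact ⟨Submodule.smul_mem _ _ hf, fun x hx => by simp [hf' x hx]⟩

/-- nondegeneracy of the form `∑ f g h` on `W` -/
lemma nondeg {a θ lo hi : ℕ} (hθ : θ + a = Fintype.card V) (f : Pt V → F2)
    (hf0 : ∀ x, lo ≤ wt x → wt x < θ → f x = 0) (hf1 : ∀ x, θ ≤ wt x → wt x < hi → f x = 1)
    {h : Pt V → F2} (hh : h ∈ WW V a lo hi)
    (hort : ∀ g ∈ Deg V a, ∑ x, f x * (g x * h x) = 0) : h = 0 := by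
  obtain ⟨hd, hv⟩ := hh
  apply eq_zero_of_upper hd
  intro y hy
  obtain ⟨g, hg, hgx⟩ := interp a y hy
  have h1 := hort g hg
  have h2 : ∑ x, f x * (g x * h x) = f y * h y := by
    rw [Finset.sum_eq_single y]
    · rw [hgx y hy]; simp
    · intro x _ hxy
      by_cases hx : Fintype.card V ≤ wt x + a
      · rw [hgx x hx, if_neg hxy]; ring
      · push Not at hx
        by_cases hlo : wt x < lo
        · rw [hv x (Or.inl hlo)]; ring
        · rw [hf0 x (by omega) (by omega)]; ring
    · intro h; exact absurd (Finset.mem_univ y) h
  rw [h2] at h1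
  by_cases hhi : hi ≤ wt y
  · exact hv y (Or.inr hhi)
  · rw [hf1 y (by omega) (by omega), one_mul] at h1
    exact h1

end Vale.Agent.P346
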