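import Mathlib

/-! The binomial inequality. -/

namespace Vale.Agent.P346

open Finset

/-- one step: `C(N,i) (N-i) = C(N,i+1) (i+1)` -/
lemma choose_step (N i : ℕ) : N.choose (i + 1) * (i + 1) = N.choose i * (N - i) :=
  Nat.choose_succ_right_eq N i

/-- geometric tail: if each ratio `C(N,i)/C(N,i+1) ≤ 1 - 1/q` for `i < m`, then the sum up to `m`
is at most `q C(N,m)`. -/
lemma tail_bound {N m q : ℕ} (hq : 1 ≤ q)
    (h : ∀ i < m, q * (i + 1) ≤ (q - 1) * (N - i)) :
    ∑ i ∈ range (m + 1), N.choose i ≤ q * N.choose m := by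
  induction m with
  | zero =>
    simp; omega
  | succ m ih =>
    rw [Finset.sum_range_succ]
    have h1 := ih fun i hi => h i (by omega)
    have h2 := h m (by omega)
    have h3 := choose_step N m
    -- q * C(N,m) ≤ (q-1) C(N,m+1)
    have h4 : q * N.choose m ≤ (q - 1) * N.choose (m + 1) := by
      by_cases hz : N - m = 0
      · rw [hz, mul_zero] at h2
        have : q * (m + 1) = 0 := by omega
        rcases Nat.mul_eq_zero.1 this with h | h
        · rw [h]; simp
        · omega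
      · have hpos : 0 < N - m := Nat.pos_of_ne_zero hz
        apply Nat.le_of_mul_le_mul_right _ hpos
        calc q * N.choose m * (N - m) = q * (N.choose (m + 1) * (m + 1)) := by rw [h3]; ring
          _ = N.choose (m + 1) * (q * (m + 1)) := by ring
          _ ≤ N.choose (m + 1) * ((q - 1) * (N - m)) := Nat.mul_le_mul_left _ h2
          _ = (q - 1) * N.choose (m + 1) * (N - m) := by ring
    obtain ⟨p, rfl⟩ : ∃ p, q = p + 1 := ⟨q - 1, by omega⟩
    simp only [Nat.add_sub_cancel] at h4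
    calc _ ≤ (p + 1) * N.choose m + N.choose (m + 1) := Nat.add_le_add_right h1 _
      _ ≤ p * N.choose (m + 1) + N.choose (m + 1) := Nat.add_le_add_right h4 _
      _ = _ := by ring

/-- monotone below the middle -/
lemma choose_mono {N i j : ℕ} (hij : i ≤ j) (hj : 2 * j ≤ N + 1) : N.choose i ≤ N.choose j := by
  induction j, hij using Nat.le_induction with
  | base => exact le_rfl
  | succ j hij ih =>
    have h1 := ih (by omega)
    have h2 := choose_step N j
    refine h1.trans ?_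
    apply Nat.le_of_mul_le_mul_right _ (Nat.succ_pos j)
    show N.choose j * (j + 1) ≤ N.choose (j + 1) * (j + 1)
    rw [h2]
    exact Nat.mul_le_mul_left _ (by omega)

/-- descending `t` steps from `j + t` to `j` -/
lemma choose_descend {N A B j : ℕ} (t : ℕ)
    (h : ∀ i, j ≤ i → i < j + t → A * (N - i) ≤ B * (i + 1)) (ht : j + t ≤ N) :
    A ^ t * N.choose (j + t) ≤ B ^ t * N.choose j := by
  induction t with
  | zero => simp
  | succ t ih =>
    have h1 := ih (fun i hi1 hi2 => h i hi1 (by omega)) (by omega)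
    have h2 := h (j + t) (by omega) (by omega)
    have h3 := choose_step N (j + t)
    have h4 : A * N.choose (j + t + 1) ≤ B * N.choose (j + t) := by
      have hpos : 0 < j + t + 1 := by omega
      apply Nat.le_of_mul_le_mul_right _ hpos
      calc A * N.choose (j + t + 1) * (j + t + 1)
          = N.choose (j + t) * (A * (N - (j + t))) := by rw [mul_assoc, h3]; ring
        _ ≤ N.choose (j + t) * (B * (j + t + 1)) := Nat.mul_le_mul_left _ h2
        _ = _ := by ring
    calc A ^ (t + 1) * N.choose (j + (t + 1)) = A ^ t * (A * N.choose (j + t + 1)) := by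
          rw [pow_succ]; ring_nf
      _ ≤ A ^ t * (B * N.choose (j + t)) := Nat.mul_le_mul_left _ h4
      _ = B * (A ^ t * N.choose (j + t)) := by ring
      _ ≤ B * (B ^ t * N.choose j) := Nat.mul_le_mul_left _ h1
      _ = _ := by rw [pow_succ]; ring

lemma pow_const (u : ℕ) (hu : 1 ≤ u) : (2 * u + 3) ^ (12 * u) ≤ 2 ^ 29 * (2 * u) ^ (12 * u) := by
  have hu' : (0 : ℝ) < 2 * u := by positivity
  have h1 : (1 + 3 / (2 * (u : ℝ))) ^ (12 * u) ≤ 3 ^ 18 := by
    have h2 : 1 + 3 / (2 * (u : ℝ)) ≤ Real.exp (3 / (2 * (u : ℝ))) := by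
      have := Real.add_one_le_exp (3 / (2 * (u : ℝ)))
      linarith
    have h3 : Real.exp 1 ≤ 3 := by
      have := Real.exp_one_lt_d9
      linarith
    calc (1 + 3 / (2 * (u : ℝ))) ^ (12 * u) ≤ (Real.exp (3 / (2 * (u : ℝ)))) ^ (12 * u) :=
          pow_le_pow_left₀ (by positivity) h2 _
      _ = Real.exp 1 ^ 18 := by
          rw [← Real.exp_nat_mul, ← Real.exp_nat_mul]
          congr 1
          push_cast
          field_simp
          ring
      _ ≤ 3 ^ 18 := pow_le_pow_left₀ (Real.exp_pos 1).le h3 _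
  have h4 : ((2 * u + 3 : ℕ) : ℝ) ^ (12 * u) ≤ 2 ^ 29 * ((2 * u : ℕ) : ℝ) ^ (12 * u) := by
    have h5 : ((2 * u + 3 : ℕ) : ℝ) = (1 + 3 / (2 * (u : ℝ))) * ((2 * u : ℕ) : ℝ) := by
      push_cast
      field_simp
    rw [h5, mul_pow]
    apply mul_le_mul_of_nonneg_right _ (by positivity)
    calc _ ≤ (3 : ℝ) ^ 18 := h1
      _ ≤ 2 ^ 29 := by norm_num
  exact_mod_cast h4

theorem count : ∃ C : ℕ, ∀ u : ℕ, 4 ≤ u →
    2 ^ (32*u^2 + 24*u - 1) +
      2 ^ C * ((∑ i ∈ Finset.range (16*u^2 - 8*u), (32*u^2 + 24*u - 1).choose i) +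
        ∑ i ∈ Finset.range (16*u^2), (32*u^2 + 24*u - 1).choose i)
      ≤ 2 ^ C * ∑ i ∈ Finset.range (16*u^2 + 8*u), (32*u^2 + 24*u - 1).choose i := by
  refine ⟨33, fun u hu => ?_⟩
  obtain ⟨N, hN⟩ : ∃ N, N = 32*u^2 + 24*u - 1 := ⟨_, rfl⟩
  rw [← hN]
  obtain ⟨v, hv⟩ : ∃ v, v = u ^ 2 := ⟨_, rfl⟩
  have hv4 : 4 * u ≤ v := by rw [hv]; nlinarith
  rw [← hv] at hN ⊢
  obtain ⟨M, hM⟩ : ∃ M, M = N.choose (16 * v - 1) := ⟨_, rfl⟩
  -- T
  have hT : ∑ i ∈ range (16 * v - 8 * u), N.choose i ≤ 4 * u * M := by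
    have e : 16 * v - 8 * u = (16 * v - 8 * u - 1) + 1 := by omega
    rw [e]
    have h1 := tail_bound (N := N) (m := 16 * v - 8 * u - 1) (q := 4 * u) (by omega) (by
      intro i hi
      have h2 : i + 1 ≤ N - i := by omega
      have h3 : 16 * v ≤ N - i := by omega
      -- 4u(i+1) ≤ (4u-1)(N-i)
      have h4 : 4 * u * (i + 1) + (N - i) ≤ 4 * u * (N - i) := by
        have h5 : i + 1 + 4 ≤ N - i := by omega
        have h6 : (N - i) ≤ 4 * u * (N - i - (i + 1)) := by
          have h7 : 40 * u ≤ N - i - (i + 1) := by omega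
          have h8 : N - i ≤ 32 * v + 24 * u := by omega
          have h9 : 4 * u * (40 * u) ≤ 4 * u * (N - i - (i + 1)) := Nat.mul_le_mul_left _ h7
          have h10 : 4 * u * (40 * u) = 160 * v := by rw [hv]; ring
          omega
        have h11 : 4 * u * (N - i - (i + 1)) + 4 * u * (i + 1) = 4 * u * (N - i) := by
          rw [← Nat.mul_add]; congr 1; omega
        omega
      have h12 : (4 * u - 1) * (N - i) = 4 * u * (N - i) - (N - i) := by
        rw [Nat.sub_mul, one_mul]
      rw [h12]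
      omega)
    refine h1.trans (Nat.mul_le_mul_left _ ?_)
    rw [hM]
    exact choose_mono (by omega) (by omega)
  -- S0
  have hS : ∑ i ∈ range (16 * v + 8 * u), N.choose i
      = ∑ i ∈ range (16 * v), N.choose i + ∑ i ∈ range (8 * u), N.choose (16 * v + i) :=
    Finset.sum_range_add _ _ _
  have hS0 : 8 * u * M ≤ ∑ i ∈ range (8 * u), N.choose (16 * v + i) := by
    have : ∑ i ∈ range (8 * u), M ≤ ∑ i ∈ range (8 * u), N.choose (16 * v + i) := by
      apply Finset.sum_le_sum
      intro i hi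
      rw [Finset.mem_range] at hi
      rw [hM]
      exact choose_mono (by omega) (by omega)
    simpa using this
  -- middle coefficient
  have hmid : N.choose (16 * v + 12 * u - 1) ≤ 2 ^ 29 * M := by
    have h1 := choose_descend (N := N) (A := 2 * u) (B := 2 * u + 3) (j := 16 * v - 1) (12 * u)
      (by
        intro i hi1 hi2
        have h2 : N - i ≤ 16 * v + 24 * u := by omega
        have h3 : 16 * v ≤ i + 1 := by omega
        calc 2 * u * (N - i) ≤ 2 * u * (16 * v + 24 * u) := Nat.mul_le_mul_left _ h2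
          _ = 32 * (u * v) + 48 * v := by rw [hv]; ring
          _ = (2 * u + 3) * (16 * v) := by ring
          _ ≤ (2 * u + 3) * (i + 1) := Nat.mul_le_mul_left _ h3) (by omega)
    have e : 16 * v - 1 + 12 * u = 16 * v + 12 * u - 1 := by omega
    rw [e, ← hM] at h1
    have h2 := pow_const u (by omega)
    have hpos : 0 < (2 * u) ^ (12 * u) := by positivity
    apply Nat.le_of_mul_le_mul_left _ hpos
    calc (2 * u) ^ (12 * u) * N.choose (16 * v + 12 * u - 1) ≤ (2 * u + 3) ^ (12 * u) * M := h1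
      _ ≤ (2 ^ 29 * (2 * u) ^ (12 * u)) * M := Nat.mul_le_mul_right _ h2
      _ = _ := by ring
  -- total
  have htot : 2 ^ N ≤ 2 * (4 * u * M + 20 * u * (2 ^ 29 * M)) := by
    have h1 := Nat.sum_range_choose_halfway (16 * v + 12 * u - 1)
    have e1 : 2 * (16 * v + 12 * u - 1) + 1 = N := by omega
    rw [e1] at h1
    have e2 : 16 * v + 12 * u - 1 + 1 = (16 * v - 8 * u) + 20 * u := by omega
    rw [e2, Finset.sum_range_add] at h1
    have h2 : ∑ i ∈ range (20 * u), N.choose (16 * v - 8 * u + i) ≤ 20 * u * (2 ^ 29 * M) := by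
      have : ∑ i ∈ range (20 * u), N.choose (16 * v - 8 * u + i)
          ≤ ∑ i ∈ range (20 * u), (2 ^ 29 * M) := by
        apply Finset.sum_le_sum
        intro i hi
        rw [Finset.mem_range] at hi
        exact (choose_mono (by omega) (by omega)).trans hmid
      simpa using this
    have h3 : 2 ^ N = 2 * 4 ^ (16 * v + 12 * u - 1) := by
      rw [← e1, pow_succ, pow_mul]; norm_num; ring
    rw [h3, ← h1]
    exact Nat.mul_le_mul_left _ (Nat.add_le_add hT h2)
  rw [hS]
  have h4 : 4 * u * M ≤ 8 * u * M := Nat.mul_le_mul_right _ (by omega)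
  obtain ⟨T, hTd⟩ : ∃ T, T = ∑ i ∈ range (16 * v - 8 * u), N.choose i := ⟨_, rfl⟩
  obtain ⟨S1, hS1⟩ : ∃ T, T = ∑ i ∈ range (16 * v), N.choose i := ⟨_, rfl⟩
  obtain ⟨S0, hS0d⟩ : ∃ T, T = ∑ i ∈ range (8 * u), N.choose (16 * v + i) := ⟨_, rfl⟩
  obtain ⟨Z, hZ⟩ : ∃ Z, Z = u * M := ⟨_, rfl⟩
  rw [← hTd] at hT ⊢
  rw [← hS1, ← hS0d]
  rw [← hS0d] at hS0
  have e3 : 4 * u * M = 4 * Z := by rw [hZ]; ring
  have e4 : 8 * u * M = 8 * Z := by rw [hZ]; ring
  have e5 : 20 * u * (2 ^ 29 * M) = 20 * 2 ^ 29 * Z := by rw [hZ]; ring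
  rw [e3] at hT htot
  rw [e4] at hS0
  rw [e5] at htot
  have h5 : 2 ^ N ≤ 2 ^ 33 * (4 * Z) := by
    refine htot.trans ?_
    norm_num
    omega
  have h6 : 2 ^ 33 * (4 * Z) + 2 ^ 33 * T ≤ 2 ^ 33 * S0 := by
    rw [← Nat.mul_add]
    apply Nat.mul_le_mul_left
    omega
  rw [Nat.mul_add, Nat.mul_add]
  omega

end Vale.Agent.P346
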