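import Mathlib

/-!
# P346: depth-five circuits for iterated matrix multiplication: definitions
-/

open Finset

namespace Vale.Agent.P346

/-- the variables of `IMM_{w,d}`: `(l, i, j)` is the entry `(i, j)` of the `l`-th matrix -/
abbrev Var (w d : ℕ) := Fin d × Fin w × Fin w

/-- the `l`-th generic matrix -/
noncomputable def gmat (K : Type) [CommRing K] (w d : ℕ) (l : Fin d) :
    Matrix (Fin w) (Fin w) (MvPolynomial (Var w d) K) :=
  Matrix.of fun i j => MvPolynomial.X (l, i, j)

/-- `IMM_{w,d}`: the first entry of the product of `d` generic `w × w` matrices (`w ≥ 1`) -/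
noncomputable def IMM (K : Type) [CommRing K] (w d : ℕ) [NeZero w] : MvPolynomial (Var w d) K :=
  (List.ofFn (gmat K w d)).prod 0 0

/-- A `ΣΠΣΠΣ` circuit with variables in `V` over `K`: `n0` leaves, `n1` bottom sum gates, `n2`
product gates, `n3` sum gates, `n4` product gates and one output sum gate; edges only between
consecutive layers; sum gates compute linear combinations of a set of inputs, product gates
multiply their inputs with multiplicities. -/
structure Circuit (K V : Type) where
  /-- number of leaves -/
  n0 : ℕ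
  /-- labels of the leaves: a variable or a constant -/
  leaf : Fin n0 → V ⊕ K
  /-- number of bottom sum gates -/
  n1 : ℕ
  /-- inputs of the bottom sum gates -/
  in1 : Fin n1 → Finset (Fin n0)
  /-- coefficients of the bottom sum gates -/
  c1 : Fin n1 → Fin n0 → K
  /-- number of lower product gates -/
  n2 : ℕ
  /-- inputs of the lower product gates, with multiplicities -/
  in2 : Fin n2 → Multiset (Fin n1)
  /-- number of middle sum gates -/
  n3 : ℕ
  /-- inputs of the middle sum gates -/
  in3 : Fin n3 → Finset (Fin n2)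
  /-- coefficients of the middle sum gates -/
  c3 : Fin n3 → Fin n2 → K
  /-- number of upper product gates -/
  n4 : ℕ
  /-- inputs of the upper product gates, with multiplicities -/
  in4 : Fin n4 → Multiset (Fin n3)
  /-- inputs of the output gate -/
  in5 : Finset (Fin n4)
  /-- coefficients of the output gate -/
  c5 : Fin n4 → K

namespace Circuit

variable {K V : Type} [CommRing K] (C : Circuit K V)

/-- the number of vertices -/
def size : ℕ := C.n0 + C.n1 + C.n2 + C.n3 + C.n4 + 1

/-- value of a leaf -/
noncomputable def val0 (i : Fin C.n0) : MvPolynomial V K :=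
  Sum.elim MvPolynomial.X MvPolynomial.C (C.leaf i)

/-- value of a bottom sum gate -/
noncomputable def val1 (i : Fin C.n1) : MvPolynomial V K :=
  ∑ j ∈ C.in1 i, MvPolynomial.C (C.c1 i j) * C.val0 j

/-- value of a lower product gate -/
noncomputable def val2 (i : Fin C.n2) : MvPolynomial V K := ((C.in2 i).map C.val1).prod

/-- value of a middle sum gate -/
noncomputable def val3 (i : Fin C.n3) : MvPolynomial V K :=
  ∑ j ∈ C.in3 i, MvPolynomial.C (C.c3 i j) * C.val2 j

/-- value of an upper product gate -/
noncomputable def val4 (i : Fin C.n4) : MvPolynomial V K := ((C.in4 i).map C.val3).prod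

/-- the polynomial computed by the circuit -/
noncomputable def value : MvPolynomial V K := ∑ j ∈ C.in5, MvPolynomial.C (C.c5 j) * C.val4 j

/-- formal degree of a leaf -/
def deg0 (i : Fin C.n0) : ℕ := Sum.elim (fun _ => 1) (fun _ => 0) (C.leaf i)

/-- syntactic homogeneity: there are formal degrees of all gates such that product gates add the
degrees of their inputs and all inputs of a sum gate have the degree of the gate -/
def Homogeneous : Prop :=
  ∃ (d1 : Fin C.n1 → ℕ) (d2 : Fin C.n2 → ℕ) (d3 : Fin C.n3 → ℕ) (d4 : Fin C.n4 → ℕ) (d5 : ℕ),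
    (∀ i, ∀ j ∈ C.in1 i, C.deg0 j = d1 i) ∧
    (∀ i, d2 i = ((C.in2 i).map d1).sum) ∧
    (∀ i, ∀ j ∈ C.in3 i, d2 j = d3 i) ∧
    (∀ i, d4 i = ((C.in4 i).map d3).sum) ∧
    (∀ j ∈ C.in5, d4 j = d5)

end Circuit

/-- `s_K(n)`: the least size of a syntactically homogeneous `ΣΠΣΠΣ` circuit for `IMM_{n,n}` -/
noncomputable def s (K : Type) [CommRing K] (n : ℕ) [NeZero n] : ℕ :=
  sInf {m | ∃ C : Circuit K (Var n n), C.Homogeneous ∧ C.value = IMM K n n ∧ C.size = m}

/-! ### functions on the cube -/

/-- points of the cube `F₂^ι` -/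
abbrev Pt (ι : Type) := ι → ZMod 2

/-- monomial functions -/
def mon {ι : Type} (S : Finset ι) : Pt ι → ZMod 2 := fun x => ∏ i ∈ S, x i

/-- functions of degree at most `D` -/
def Deg (ι : Type) (D : ℕ) : Submodule (ZMod 2) (Pt ι → ZMod 2) :=
  Submodule.span (ZMod 2) {f | ∃ S : Finset ι, S.card ≤ D ∧ f = mon S}

/-- Hamming weight -/
def wt {κ : Type} [Fintype κ] (x : Pt κ) : ℕ := (univ.filter fun i => x i ≠ 0).card

/-- `1 + e_D(x)`, where `e_D` is the elementary symmetric polynomial of degree `D` -/
def uu {κ : Type} [Fintype κ] (D : ℕ) (x : Pt κ) : ZMod 2 := 1 + ((wt x).choose D : ZMod 2)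

end Vale.Agent.P346
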