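import Vale.Agent.Lib.P346.Defs

/-! Functions of bounded degree on the Boolean cube over `ZMod 2`. -/

namespace Vale.Agent.P346

abbrev F2 := ZMod 2

variable {V : Type}

lemma mon_mem (S : Finset V) {D : ℕ} (h : S.card ≤ D) : mon S ∈ Deg V D :=
  Submodule.subset_span ⟨S, h, rfl⟩

lemma Deg_mono {D D' : ℕ} (h : D ≤ D') : Deg V D ≤ Deg V D' := by
  apply Submodule.span_mono
  rintro f ⟨S, hS, rfl⟩
  exact ⟨S, hS.trans h, rfl⟩

lemma F2_sq (a : F2) : a * a = a := by revert a; decide

lemma mon_mul [DecidableEq V] (S T : Finset V) : mon S * mon T = mon (S ∪ T) := by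
  funext x
  simp only [mon, Pi.mul_apply]
  have h1 : ∏ i ∈ S ∪ T, x i = (∏ i ∈ S, x i) * ∏ i ∈ T \ S, x i := by
    rw [← Finset.prod_union Finset.disjoint_sdiff]
    congr 1
    simp
  have h2 : ∏ i ∈ T, x i = (∏ i ∈ T \ S, x i) * ∏ i ∈ T ∩ S, x i := by
    rw [← Finset.prod_union (Finset.disjoint_sdiff_inter T S), Finset.sdiff_union_inter]
  have h3 : ∏ i ∈ S, x i = (∏ i ∈ S \ T, x i) * ∏ i ∈ T ∩ S, x i := by
    rw [Finset.inter_comm T S,
      ← Finset.prod_union (Finset.disjoint_sdiff_inter S T), Finset.sdiff_union_inter]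
  rw [h1, h2]
  rw [h3]
  have := F2_sq (∏ i ∈ T ∩ S, x i)
  calc _ = (∏ i ∈ S \ T, x i) * (∏ i ∈ T \ S, x i)
        * ((∏ i ∈ T ∩ S, x i) * ∏ i ∈ T ∩ S, x i) := by ring
    _ = _ := by rw [this]; ring

lemma Deg_mul {D E : ℕ} {f g : Pt V → F2} (hf : f ∈ Deg V D) (hg : g ∈ Deg V E) :
    f * g ∈ Deg V (D + E) := by
  classical
  induction hf using Submodule.span_induction with
  | mem f hf =>
    obtain ⟨S, hS, rfl⟩ := hf
    induction hg using Submodule.span_induction with
    | mem g hg =>
      obtain ⟨T, hT, rfl⟩ := hg
      rw [mon_mul]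
      exact mon_mem _ ((Finset.card_union_le S T).trans (by omega))
    | zero => simp
    | add g g' _ _ h h' => rw [mul_add]; exact Submodule.add_mem _ h h'
    | smul a g _ h => rw [mul_smul_comm]; exact Submodule.smul_mem _ _ h
  | zero => simp
  | add f f' _ _ h h' => rw [add_mul]; exact Submodule.add_mem _ h h'
  | smul a f _ h => rw [smul_mul_assoc]; exact Submodule.smul_mem _ _ h

lemma one_mem (D : ℕ) : (1 : Pt V → F2) ∈ Deg V D := by
  have : (1 : Pt V → F2) = mon ∅ := by funext x; simp [mon]
  rw [this]; exact mon_mem _ (by simp)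

lemma Deg_prod {ι : Type} (s : Finset ι) (D : ℕ) (f : ι → Pt V → F2)
    (h : ∀ i ∈ s, f i ∈ Deg V D) : (∏ i ∈ s, f i) ∈ Deg V (s.card * D) := by
  classical
  induction s using Finset.induction_on with
  | empty => simpa using one_mem 0
  | insert i s hi ih =>
    rw [Finset.prod_insert hi, Finset.card_insert_of_notMem hi, add_mul, one_mul, add_comm]
    exact Deg_mul (h i (by simp)) (ih fun j hj => h j (by simp [hj]))

/-- a function of degree less than the number of variables sums to zero -/
lemma sum_eq_zero [Fintype V] [DecidableEq V] {D : ℕ} (hD : D < Fintype.card V)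
    {f : Pt V → F2} (hf : f ∈ Deg V D) : ∑ x, f x = 0 := by
  induction hf using Submodule.span_induction with
  | mem f hf =>
    obtain ⟨S, hS, rfl⟩ := hf
    obtain ⟨v, hv⟩ : ∃ v, v ∉ S := by
      by_contra h
      push Not at h
      have : S = Finset.univ := Finset.eq_univ_iff_forall.2 h
      rw [this, Finset.card_univ] at hS
      omega
    -- flip coordinate v
    apply Finset.sum_involution (fun x _ => Function.update x v (x v + 1))
    · intro x _
      have : mon S (Function.update x v (x v + 1)) = mon S x := by
        unfold mon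
        apply Finset.prod_congr rfl
        intro i hi
        rw [Function.update_of_ne]
        rintro rfl; exact hv hi
      rw [this]
      exact CharTwo.add_self_eq_zero _
    · intro x _ _ h
      have := congrFun h v
      simp at this
    · intro x _
      funext i
      by_cases hi : i = v
      · subst hi
        simp only [Function.update_self]
        rw [add_assoc, CharTwo.add_self_eq_zero, add_zero]
      · simp [Function.update_of_ne hi]
    · intro x _; exact Finset.mem_univ _
  | zero => simp
  | add f g _ _ hf hg => simp [Finset.sum_add_distrib, hf, hg]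
  | smul a f _ hf => simp [← Finset.mul_sum, hf]

/-- pull back of a function of a block of variables -/
lemma Deg_comp {W : Type} (e : W ↪ V) {D : ℕ} {g : Pt W → F2} (hg : g ∈ Deg W D) :
    (fun x : V → F2 => g (fun w => x (e w))) ∈ Deg V D := by
  induction hg using Submodule.span_induction with
  | mem g hg =>
    obtain ⟨S, hS, rfl⟩ := hg
    have : (fun x : V → F2 => mon S (fun w => x (e w))) = mon (S.map e) := by
      funext x; simp [mon]
    rw [this]
    exact mon_mem _ (by simpa using hS)
  | zero => exact Submodule.zero_mem _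
  | add f g _ _ hf hg => exact Submodule.add_mem _ hf hg
  | smul a f _ hf => exact Submodule.smul_mem _ a hf

end Vale.Agent.P346
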