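import Vale.Agent.Lib.P346.Defs

/-!
# P346: homogeneous polynomials have syntactically homogeneous `ΣΠΣΠΣ` circuits
-/

open Finset

namespace Vale.Agent.P346

theorem prod_homog {K σ : Type} [CommRing K] {w : ℕ} (L : List (Matrix (Fin w) (Fin w) (MvPolynomial σ K)))
    (hL : ∀ A ∈ L, ∀ i j, (A i j).IsHomogeneous 1) (i j : Fin w) :
    (L.prod i j).IsHomogeneous L.length := by
  induction L generalizing i j with
  | nil =>
    simp only [List.prod_nil, List.length_nil, Matrix.one_apply]
    split_ifs
    · exact MvPolynomial.isHomogeneous_one _ _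
    · exact MvPolynomial.isHomogeneous_zero _ _ _
  | cons A L ih =>
    simp only [List.prod_cons, List.length_cons, Matrix.mul_apply]
    refine MvPolynomial.IsHomogeneous.sum _ _ _ fun k _ => ?_
    rw [add_comm]
    exact (hL A (by simp) i k).mul (ih (fun B hB => hL B (by simp [hB])) k j)

theorem IMM_homog (K : Type) [CommRing K] (w d : ℕ) [NeZero w] :
    (IMM K w d).IsHomogeneous d := by
  have h := prod_homog (List.ofFn (gmat K w d)) (fun A hA i j => by
    rw [List.mem_ofFn] at hA
    obtain ⟨l, rfl⟩ := hA
    exact MvPolynomial.isHomogeneous_X _ _) 0 0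
  simpa [IMM] using h

theorem exists_circuit_of_homog {K V : Type} [CommRing K] [Fintype V] (P : MvPolynomial V K) (d : ℕ)
    (hP : P.IsHomogeneous d) : ∃ C : Circuit K V, C.Homogeneous ∧ C.value = P := by
  classical
  set e : Fin (Fintype.card V) ≃ V := (Fintype.equivFin V).symm with he
  set em : Fin P.support.card ≃ P.support := P.support.equivFin.symm with hem
  let C : Circuit K V :=
    { n0 := Fintype.card V
      leaf := fun i => Sum.inl (e i)
      n1 := Fintype.card V
      in1 := fun i => {i}
      c1 := fun _ _ => 1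
      n2 := P.support.card
      in2 := fun k => (Finsupp.toMultiset ((em k : V →₀ ℕ))).map e.symm
      n3 := 1
      in3 := fun _ => univ
      c3 := fun _ k => P.coeff (em k : V →₀ ℕ)
      n4 := 1
      in4 := fun _ => {0}
      in5 := univ
      c5 := fun _ => 1 }
  have h1 : ∀ i, C.val1 i = MvPolynomial.X (e i) := by
    intro i
    show ∑ j ∈ ({i} : Finset (Fin (Fintype.card V))), MvPolynomial.C 1 * C.val0 j = _
    rw [Finset.sum_singleton, map_one, one_mul]
    rfl
  have h2 : ∀ k, C.val2 k = MvPolynomial.monomial (em k : V →₀ ℕ) 1 := by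
    intro k
    show (((Finsupp.toMultiset ((em k : V →₀ ℕ))).map e.symm).map C.val1).prod = _
    rw [Multiset.map_map]
    have : (C.val1 ∘ e.symm) = fun v => (MvPolynomial.X v : MvPolynomial V K) := by
      funext v
      simp [h1]
    rw [this, MvPolynomial.monomial_eq, map_one, one_mul, Finset.prod_multiset_map_count,
      Finsupp.toFinset_toMultiset, Finsupp.prod]
    exact Finset.prod_congr rfl fun v _ => by rw [Finsupp.count_toMultiset]
  refine ⟨C, ?_, ?_⟩
  · refine ⟨fun _ => 1, fun _ => d, fun _ => d, fun _ => d, d, ?_, ?_, ?_, ?_, ?_⟩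
    · intro i j _
      rfl
    · intro k
      show d = (((Finsupp.toMultiset ((em k : V →₀ ℕ))).map e.symm).map fun _ => 1).sum
      rw [Multiset.map_const', Multiset.sum_replicate, Multiset.card_map, Finsupp.card_toMultiset,
        smul_eq_mul, mul_one]
      have h3 := hP (MvPolynomial.mem_support_iff.1 (em k).2)
      rw [← h3, Finsupp.weight_apply]
      simp [Finsupp.sum]
    · intro _ _ _; rfl
    · intro i
      show d = (({0} : Multiset (Fin 1)).map fun _ => d).sum
      simp
    · intro _ _; rfl
  · show ∑ j ∈ (univ : Finset (Fin 1)), MvPolynomial.C 1 * C.val4 j = P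
    rw [Fin.sum_univ_one, map_one, one_mul]
    show (({0} : Multiset (Fin 1)).map C.val3).prod = P
    rw [Multiset.map_singleton, Multiset.prod_singleton]
    show ∑ k ∈ (univ : Finset (Fin P.support.card)), MvPolynomial.C (P.coeff (em k : V →₀ ℕ)) *
      C.val2 k = P
    simp only [h2, MvPolynomial.C_mul_monomial, mul_one]
    rw [Equiv.sum_comp em (fun m => MvPolynomial.monomial (m : V →₀ ℕ) (P.coeff (m : V →₀ ℕ))),
      Finset.sum_coe_sort P.support (fun m => MvPolynomial.monomial m (P.coeff m))]
    exact P.support_sum_monomial_coeff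

theorem exists_circuit (K : Type) [CommRing K] (n : ℕ) [NeZero n] :
    ∃ C : Circuit K (Var n n), C.Homogeneous ∧ C.value = IMM K n n :=
  exists_circuit_of_homog _ n (IMM_homog K n n)

end Vale.Agent.P346
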