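import Vale.Agent.Lib.P346.Deg

/-! Products of elementary symmetric polynomials are projections of iterated matrix products. -/

namespace Vale.Agent.P346

open Finset

namespace Sim

variable {k N : ℕ}

/-- the variables of block `c`, indexed from `1` to `N` -/
def yy (x : Pt (Fin k × Fin N)) (c j : ℕ) : F2 :=
  if h : c < k ∧ 1 ≤ j ∧ j ≤ N then x (⟨c, h.1⟩, ⟨j - 1, by omega⟩) else 0

/-- entries of the matrices -/
def mat (d : ℕ) (x : Pt (Fin k × Fin N)) (l j j' : ℕ) : F2 :=
  if l / (d + 1) < k then
    (if l % (d + 1) < d then (if j < j' then yy x (l / (d + 1)) j' else 0)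
      else (if j' = 0 then 1 else 0))
  else (if j = 0 ∧ j' = 0 then 1 else 0)

/-- row vectors -/
def row (n d : ℕ) (x : Pt (Fin k × Fin N)) : ℕ → ℕ → F2
  | 0, j => if j = 0 then 1 else 0
  | l + 1, j' => ∑ j ∈ range n, row n d x l j * mat d x l j j'

/-- number of nonzero variables with index below `j` -/
def cnt (y : ℕ → F2) (j : ℕ) : ℕ := ((range j).filter fun m => y m ≠ 0).card

lemma cnt_zero (y : ℕ → F2) : cnt y 0 = 0 := by simp [cnt]

lemma choose_succ (y : ℕ → F2) (i j : ℕ) :
    ((cnt y (j + 1)).choose (i + 1) : F2)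
      = ((cnt y j).choose (i + 1) : F2) + y j * ((cnt y j).choose i : F2) := by
  have hy : y j = 0 ∨ y j = 1 := by
    have : ∀ a : F2, a = 0 ∨ a = 1 := by decide
    exact this _
  have hc : cnt y (j + 1) = cnt y j + (if y j ≠ 0 then 1 else 0) := by
    unfold cnt
    rw [Finset.range_add_one, Finset.filter_insert]
    split_ifs with h
    · rw [Finset.card_insert_of_notMem (by simp)]
    · simp
  rcases hy with h | h
  · rw [hc, h]; simp
  · rw [hc, h, if_pos (by decide), Nat.choose_succ_succ', one_mul]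
    push_cast
    ring

/-- the value of the row vector inside a block -/
def inner (y : ℕ → F2) : ℕ → ℕ → F2
  | 0, j => if j = 0 then 1 else 0
  | i + 1, j => y j * ((cnt y j).choose i : F2)

lemma sum_inner (y : ℕ → F2) (i j : ℕ) (hj : 1 ≤ j) :
    ∑ m ∈ range j, inner y i m = ((cnt y j).choose i : F2) := by
  cases i with
  | zero =>
    simp only [inner, Nat.choose_zero_right, Nat.cast_one]
    rw [Finset.sum_ite_eq' (range j) 0 (fun _ => (1 : F2)), if_pos (mem_range.mpr (by omega))]
  | succ i =>
    clear hj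
    induction j with
    | zero => simp [cnt_zero]
    | succ j ih =>
      rw [Finset.sum_range_succ, ih, choose_succ]
      rfl

lemma sum_lt_eq (n j' : ℕ) (hj' : j' < n) (f : ℕ → F2) (z : F2) :
    ∑ j ∈ range n, f j * (if j < j' then z else 0) = z * ∑ j ∈ range j', f j := by
  have h1 : ∀ j ∈ range n, f j * (if j < j' then z else 0) = if j < j' then z * f j else 0 := by
    intro j _
    split_ifs
    · exact mul_comm _ _
    · simp
  rw [Finset.sum_congr rfl h1, ← Finset.sum_filter, Finset.mul_sum]
  apply Finset.sum_congr _ (fun _ _ => rfl)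
  ext j
  simp only [mem_filter, mem_range]
  omega

lemma cnt_eq (x : Pt (Fin k × Fin N)) (c : Fin k) (n : ℕ) (h2 : N + 1 ≤ n) :
    cnt (yy x c) n = wt fun i => x (c, i) := by
  unfold cnt wt
  symm
  apply Finset.card_bij (fun (i : Fin N) _ => (i : ℕ) + 1)
  · intro i hi
    rw [mem_filter] at hi ⊢
    refine ⟨by rw [mem_range]; omega, ?_⟩
    have : yy x c ((i : ℕ) + 1) = x (c, i) := by
      unfold yy
      rw [dif_pos ⟨c.2, by omega, by omega⟩]
      congr 2
    rw [this]
    exact hi.2
  · intro i _ j _ hij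
    apply Fin.ext
    omega
  · intro m hm
    rw [mem_filter] at hm
    have hne := hm.2
    unfold yy at hne
    by_cases h : (c : ℕ) < k ∧ 1 ≤ m ∧ m ≤ N
    · rw [dif_pos h] at hne
      refine ⟨⟨m - 1, by omega⟩, ?_, by simp only; omega⟩
      rw [mem_filter]
      exact ⟨mem_univ _, hne⟩
    · rw [dif_neg h] at hne
      exact absurd rfl hne

lemma yy_zero (x : Pt (Fin k × Fin N)) (c : ℕ) : yy x c 0 = 0 := by
  unfold yy
  rw [dif_neg (by omega)]

lemma div_block (d c i : ℕ) (hi : i ≤ d) : (c * (d + 1) + i) / (d + 1) = c := by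
  rw [mul_comm, Nat.mul_add_div (Nat.succ_pos d), Nat.div_eq_of_lt (by omega), add_zero]

lemma mod_block (d c i : ℕ) (hi : i ≤ d) : (c * (d + 1) + i) % (d + 1) = i := by
  rw [mul_comm, Nat.mul_add_mod, Nat.mod_eq_of_lt (by omega)]

/-- inside one block -/
lemma block_aux (n d : ℕ) (x : Pt (Fin k × Fin N)) (c : ℕ) (hc : c < k) (p : F2)
    (hp : ∀ j < n, row n d x (c * (d + 1)) j = p * (if j = 0 then 1 else 0)) (i : ℕ)
    (hi : i ≤ d) : ∀ j < n, row n d x (c * (d + 1) + i) j = p * inner (yy x c) i j := by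
  induction i with
  | zero =>
    intro j hj
    rw [add_zero, hp j hj]
    rfl
  | succ i ih =>
    intro j' hj'
    have ih' := ih (by omega)
    rw [← add_assoc, row]
    have e : ∀ j ∈ range n, row n d x (c * (d + 1) + i) j * mat d x (c * (d + 1) + i) j j'
        = (p * inner (yy x c) i j) * (if j < j' then yy x c j' else 0) := by
      intro j hj
      rw [ih' j (mem_range.mp hj), mat, div_block d c i (by omega), mod_block d c i (by omega),
        if_pos hc, if_pos (by omega)]
    rw [Finset.sum_congr rfl e, sum_lt_eq n j' hj', ← Finset.mul_sum]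
    by_cases h0 : j' = 0
    · subst h0
      simp [yy_zero, inner]
    · rw [sum_inner _ _ _ (by omega)]
      simp only [inner]
      ring

lemma block (n d : ℕ) (x : Pt (Fin k × Fin N)) (c : ℕ) (hc : c < k) (p : F2) (h2 : N + 1 ≤ n)
    (hp : ∀ j < n, row n d x (c * (d + 1)) j = p * (if j = 0 then 1 else 0)) :
    ∀ j < n, row n d x ((c + 1) * (d + 1)) j
      = (p * ((wt fun i => x (⟨c, hc⟩, i)).choose d : F2)) * (if j = 0 then 1 else 0) := by
  intro j' hj'
  have h3 : (c + 1) * (d + 1) = (c * (d + 1) + d) + 1 := by ring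
  rw [h3, row]
  have hb := block_aux n d x c hc p hp d le_rfl
  have e : ∀ j ∈ range n, row n d x (c * (d + 1) + d) j * mat d x (c * (d + 1) + d) j j'
      = (p * inner (yy x c) d j) * (if j' = 0 then 1 else 0) := by
    intro j hj
    rw [hb j (mem_range.mp hj), mat, div_block d c d le_rfl, mod_block d c d le_rfl,
      if_pos hc, if_neg (lt_irrefl d)]
  rw [Finset.sum_congr rfl e, ← Finset.sum_mul, ← Finset.mul_sum, sum_inner _ _ _ (by omega)]
  rw [show yy x c = yy x ((⟨c, hc⟩ : Fin k) : ℕ) from rfl, cnt_eq x ⟨c, hc⟩ n h2]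

lemma blocks (n d : ℕ) (x : Pt (Fin k × Fin N)) (h2 : N + 1 ≤ n) (c : ℕ) (hc : c ≤ k) :
    ∀ j < n, row n d x (c * (d + 1)) j
      = (∏ c' : Fin c, ((wt fun i => x (⟨c', by omega⟩, i)).choose d : F2))
        * (if j = 0 then 1 else 0) := by
  induction c with
  | zero =>
    intro j _
    simp [row]
  | succ c ih =>
    intro j hj
    rw [block n d x c (by omega) _ h2 (ih (by omega)) j hj]
    congr 1
    rw [Fin.prod_univ_castSucc]
    rfl

lemma tail (n d : ℕ) (x : Pt (Fin k × Fin N)) (h2 : N + 1 ≤ n) (m : ℕ) :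
    ∀ j < n, row n d x (k * (d + 1) + m) j
      = (∏ c : Fin k, ((wt fun i => x (c, i)).choose d : F2)) * (if j = 0 then 1 else 0) := by
  induction m with
  | zero =>
    intro j hj
    rw [add_zero, blocks n d x h2 k le_rfl j hj]
  | succ m ih =>
    intro j' hj'
    rw [← add_assoc, row]
    have hdiv : ¬ (k * (d + 1) + m) / (d + 1) < k := by
      rw [not_lt, Nat.le_div_iff_mul_le (Nat.succ_pos d)]
      exact Nat.le_add_right _ _
    have e : ∀ j ∈ range n, row n d x (k * (d + 1) + m) j * mat d x (k * (d + 1) + m) j j'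
        = if j = 0 then (∏ c : Fin k, ((wt fun i => x (c, i)).choose d : F2))
            * (if j' = 0 then 1 else 0) else 0 := by
      intro j hj
      rw [ih j (mem_range.mp hj), mat, if_neg hdiv]
      by_cases h0 : j = 0
      · simp [h0]
      · simp [h0]
    rw [Finset.sum_congr rfl e, Finset.sum_ite_eq' (range n) 0, if_pos (by rw [mem_range]; omega)]

lemma prod_row (n d : ℕ) [NeZero n] (x : Pt (Fin k × Fin N)) (m : ℕ) (j' : Fin n) :
    ((List.ofFn fun l : Fin m => (Matrix.of fun i j : Fin n => mat d x l i j :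
      Matrix (Fin n) (Fin n) F2)).prod 0 j' : F2) = row n d x m j' := by
  induction m generalizing j' with
  | zero =>
    rw [List.ofFn_zero, List.prod_nil, Matrix.one_apply, row]
    congr 1
    rw [eq_comm (a := (0 : Fin n)), ← Fin.val_eq_zero_iff]
  | succ m ih =>
    rw [List.ofFn_succ', List.concat_eq_append, List.prod_append, List.prod_singleton,
      Matrix.mul_apply, row, ← Fin.sum_univ_eq_sum_range
        (fun j => row n d x m j * mat d x m j j') n]
    apply Finset.sum_congr rfl
    intro j _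
    rw [← ih j]
    simp [Matrix.of_apply]

end Sim

open Sim

theorem imm_sim (n d k N : ℕ) [NeZero n] (h1 : k * (d + 1) ≤ n) (h2 : N + 1 ≤ n) :
    ∃ a : Var n n → Pt (Fin k × Fin N) → F2, (∀ v, a v ∈ Deg (Fin k × Fin N) 1) ∧
      ∀ x, MvPolynomial.eval (fun v => a v x) (IMM F2 n n)
        = ∏ c : Fin k, ((wt fun i => x (c, i)).choose d : F2) := by
  refine ⟨fun v x => mat d x v.1 v.2.1 v.2.2, ?_, ?_⟩
  · rintro ⟨l, j, j'⟩
    have hconst : ∀ c : F2, (fun _ => c : Pt (Fin k × Fin N) → F2) ∈ Deg (Fin k × Fin N) 1 := by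
      intro c
      have : (fun _ => c : Pt (Fin k × Fin N) → F2) = c • (1 : Pt (Fin k × Fin N) → F2) := by
        funext x; simp
      rw [this]
      exact Submodule.smul_mem _ c (one_mem 1)
    have hy : ∀ c j : ℕ, (fun x : Pt (Fin k × Fin N) => yy x c j) ∈ Deg (Fin k × Fin N) 1 := by
      intro c j
      unfold yy
      by_cases h : c < k ∧ 1 ≤ j ∧ j ≤ N
      · simp only [dif_pos h]
        have : (fun x : Pt (Fin k × Fin N) => x (⟨c, h.1⟩, ⟨j - 1, by omega⟩))
            = mon {((⟨c, h.1⟩, ⟨j - 1, by omega⟩) : Fin k × Fin N)} := by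
          funext x; simp [mon]
        rw [this]
        exact mon_mem _ (by simp)
      · simp only [dif_neg h]
        exact hconst 0
    simp only [mat]
    split_ifs
    · exact hy _ _
    · exact hconst 0
    · exact hconst 1
    · exact hconst 0
    · exact hconst 1
    · exact hconst 0
  · intro x
    have e : MvPolynomial.eval (fun v : Var n n => mat d x v.1 v.2.1 v.2.2) (IMM F2 n n)
        = (List.ofFn fun l : Fin n => (Matrix.of fun i j : Fin n => mat d x l i j :
            Matrix (Fin n) (Fin n) F2)).prod 0 0 := by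
      unfold IMM
      have h3 := map_list_prod (RingHom.mapMatrix (m := Fin n)
        (MvPolynomial.eval (fun v : Var n n => mat d x v.1 v.2.1 v.2.2))) (List.ofFn (gmat F2 n n))
      have h4 := congrFun (congrFun h3 0) 0
      rw [RingHom.mapMatrix_apply, Matrix.map_apply, List.map_ofFn] at h4
      have h5 : ((MvPolynomial.eval fun v : Var n n => mat d x v.1 v.2.1 v.2.2).mapMatrix
          (m := Fin n) ∘ gmat F2 n n) = fun l : Fin n => (Matrix.of fun i j : Fin n =>
            mat d x l i j : Matrix (Fin n) (Fin n) F2) := by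
        funext l
        ext i j
        simp [gmat]
      rw [h4, h5]
    rw [e, prod_row]
    obtain ⟨m, hm⟩ := Nat.exists_eq_add_of_le h1
    have hr : row n d x n ((0 : Fin n) : ℕ) = row n d x (k * (d + 1) + m) ((0 : Fin n) : ℕ) := by
      rw [← hm]
    rw [hr, tail n d x h2 m _ (Fin.is_lt _)]
    simp

end Vale.Agent.P346
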