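import Vale.Agent.Lib.P346.Tensor
import Vale.Agent.Lib.P346.Count
import Vale.Agent.Lib.P346.Sim
import Vale.Agent.Lib.P346.Approx

/-! Assembly of the lower bound. -/

namespace Vale.Agent.P346

open Finset

lemma choose_two_pow (t : ℕ) : ∀ w : ℕ, ((w.choose (2 ^ t) : ℕ) : F2) = ((w / 2 ^ t : ℕ) : F2) := by
  induction t with
  | zero => intro w; simp
  | succ t ih =>
    intro w
    have h := Choose.choose_modEq_choose_mod_mul_choose_div_nat (n := w) (k := 2 ^ (t + 1)) (p := 2)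
    have h1 : 2 ^ (t + 1) % 2 = 0 := by rw [pow_succ]; omega
    have h2 : 2 ^ (t + 1) / 2 = 2 ^ t := by rw [pow_succ]; omega
    rw [h1, h2, Nat.choose_zero_right, one_mul] at h
    have h3 := (ZMod.natCast_eq_natCast_iff _ _ _).2 h
    rw [h3, ih, Nat.div_div_eq_div_mul]
    congr 2
    rw [pow_succ, mul_comm]

/-- the block function -/
def ff (d : ℕ) {V : Type} [Fintype V] (x : Pt V) : F2 := ((wt x).choose d : F2)

/-- the binomial inequality with constant `C` -/
def CountC (C : ℕ) : Prop := ∀ u : ℕ, 4 ≤ u →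
    2 ^ (32*u^2 + 24*u - 1) +
      2 ^ C * ((∑ i ∈ Finset.range (16*u^2 - 8*u), (32*u^2 + 24*u - 1).choose i) +
        ∑ i ∈ Finset.range (16*u^2), (32*u^2 + 24*u - 1).choose i)
      ≤ 2 ^ C * ∑ i ∈ Finset.range (16*u^2 + 8*u), (32*u^2 + 24*u - 1).choose i

lemma count_aux {M S T P : ℕ} (h : M + P * S ≤ P * T) : M + P * 2 * S ≤ P * 2 * T := by
  nlinarith

lemma CountC.succ {C : ℕ} (hC : CountC C) : CountC (C + 1) := by
  intro u hu
  have h := hC u hu
  rw [pow_succ]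
  exact count_aux h

lemma block_rank {C : ℕ} (hC : CountC C)
    (u : ℕ) (hu : 4 ≤ u) :
    2 ^ (32*u^2 + 24*u - 1) ≤ 2 ^ C * Module.finrank F2 (WW (Fin (32*u^2 + 24*u - 1))
      (16*u^2 + 8*u - 1) (16*u^2) (16*u^2 + 32*u)) := by
  have h1 := finrank_WW_ge (V := Fin (32*u^2 + 24*u - 1)) (16*u^2 + 8*u - 1) (16*u^2)
    (16*u^2 + 32*u) (16*u^2 - 8*u) (by
      rw [Fintype.card_fin]
      have : 8 * u ≤ 16 * u ^ 2 := by nlinarith
      omega)
  rw [Fintype.card_fin] at h1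
  have h2 : 16*u^2 + 8*u - 1 + 1 = 16*u^2 + 8*u := by omega
  rw [h2] at h1
  have h3 := hC u hu
  have h4 := Nat.mul_le_mul_left (2 ^ C) h1
  rw [Nat.mul_add] at h4
  omega

lemma key {C : ℕ} (hC : CountC C)
    {s k r n : ℕ} [NeZero n] (hs : 2 ≤ s) (hn : 32*(2^s)^2 + 24*2^s ≤ n)
    (hk : k * (16 * 2^s + 1) ≤ n) (hr : r * r < k * (8 * 2^s + 1))
    (Cc : Circuit F2 (Var n n)) (hCc : Cc.value = IMM F2 n n) :
    2 ^ r ≤ 2 ^ (C * k) * (Cc.n2 + Cc.n4) := by
  set u := 2 ^ s with hu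
  have hu4 : 4 ≤ u := by
    rw [hu]
    calc 4 = 2 ^ 2 := by norm_num
      _ ≤ 2 ^ s := Nat.pow_le_pow_right (by norm_num) hs
  have hueven : (u : F2) = 0 := by
    rw [hu]
    obtain ⟨t, rfl⟩ : ∃ t, s = t + 1 := ⟨s - 1, by omega⟩
    push_cast
    rw [pow_succ]
    have : (2 : F2) = 0 := by decide
    rw [this, mul_zero]
  obtain ⟨N, hN⟩ : ∃ N, N = 32*u^2 + 24*u - 1 := ⟨_, rfl⟩
  obtain ⟨av, hav, hev⟩ := imm_sim n (16 * u) k N hk (by omega)
  obtain ⟨G, hG, hE⟩ := circuit_approx Cc av hav r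
  have h16 : 16 * u = 2 ^ (s + 4) := by rw [hu, pow_add]; ring
  have hdiv : ∀ w, ((w.choose (16 * u) : ℕ) : F2) = ((w / (16 * u) : ℕ) : F2) := by
    intro w; rw [h16]; exact choose_two_pow _ _
  have hθ : (16*u^2 + 16*u) + (16*u^2 + 8*u - 1) = Fintype.card (Fin N) := by
    rw [Fintype.card_fin]; omega
  have hT := tensor_bound (V := Fin N) (k := k) (a := 16*u^2 + 8*u - 1) (θ := 16*u^2 + 16*u)
    (lo := 16*u^2) (hi := 16*u^2 + 32*u) (D := r * r) hθ (ff (16 * u))
    (by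
      intro x h1 h2
      show ((wt x).choose (16 * u) : F2) = 0
      rw [hdiv]
      have : wt x / (16 * u) = u := by
        apply Nat.div_eq_of_lt_le
        · calc u * (16 * u) = 16 * u ^ 2 := by ring
            _ ≤ _ := h1
        · calc wt x < _ := h2
            _ = (u + 1) * (16 * u) := by ring
      rw [this, hueven])
    (by
      intro x h1 h2
      show ((wt x).choose (16 * u) : F2) = 1
      rw [hdiv]
      have : wt x / (16 * u) = u + 1 := by
        apply Nat.div_eq_of_lt_le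
        · calc (u + 1) * (16 * u) = 16 * u ^ 2 + 16 * u := by ring
            _ ≤ _ := h1
        · calc wt x < _ := h2
            _ = (u + 1 + 1) * (16 * u) := by ring
      rw [this]
      push_cast
      rw [hueven, zero_add])
    G hG (by
      rw [Fintype.card_fin]
      have : N = 2 * (16*u^2 + 8*u - 1) + (8 * u + 1) := by omega
      rw [this]
      nlinarith)
  have hset : (univ.filter fun x : Pt (Fin k × Fin N) => G x ≠ ∏ c, ff (16 * u) (blk x c))
      = univ.filter fun x => G x ≠ MvPolynomial.eval (fun v => av v x) Cc.value := by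
    rw [hCc]
    ext x
    simp only [mem_filter, mem_univ, true_and]
    rw [hev x]
    rfl
  rw [hset] at hT
  have hR := block_rank hC u hu4
  rw [← hN] at hR
  rw [Fintype.card_prod, Fintype.card_fin, Fintype.card_fin] at hE
  set ρ := Module.finrank F2 (WW (Fin N) (16*u^2 + 8*u - 1) (16*u^2) (16*u^2 + 32*u)) with hρ
  set e := (univ.filter fun x : Pt (Fin k × Fin N) =>
    G x ≠ MvPolynomial.eval (fun v => av v x) Cc.value).card with he
  have h1 : 2 ^ (k * N) ≤ 2 ^ (C * k) * ρ ^ k := by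
    calc 2 ^ (k * N) = (2 ^ N) ^ k := by rw [← pow_mul]; ring_nf
      _ ≤ (2 ^ C * ρ) ^ k := Nat.pow_le_pow_left hR k
      _ = _ := by rw [mul_pow, ← pow_mul]
  have h2 : 2 ^ (k * N) * 2 ^ r ≤ 2 ^ (k * N) * (2 ^ (C * k) * (Cc.n2 + Cc.n4)) := by
    calc 2 ^ (k * N) * 2 ^ r ≤ (2 ^ (C * k) * ρ ^ k) * 2 ^ r := Nat.mul_le_mul_right _ h1
      _ ≤ (2 ^ (C * k) * e) * 2 ^ r :=
          Nat.mul_le_mul_right _ (Nat.mul_le_mul_left _ hT)
      _ = 2 ^ (C * k) * (e * 2 ^ r) := by ring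
      _ ≤ 2 ^ (C * k) * ((Cc.n2 + Cc.n4) * 2 ^ (k * N)) := Nat.mul_le_mul_left _ hE
      _ = _ := by ring
  exact Nat.le_of_mul_le_mul_left h2 (by positivity)

lemma size_ge_two {n : ℕ} [NeZero n] (Cc : Circuit F2 (Var n n)) (hCc : Cc.value = IMM F2 n n) :
    2 ≤ Cc.size := by
  obtain ⟨av, _, hev⟩ := imm_sim n 0 0 0 (by omega) (Nat.one_le_iff_ne_zero.2 (NeZero.ne n))
  have h1 : MvPolynomial.eval (fun v => av v 0) Cc.value = 1 := by
    rw [hCc, hev]; simp
  have h2 : Cc.n4 ≠ 0 := by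
    intro h0
    have : Cc.value = 0 := by
      unfold Circuit.value
      apply Finset.sum_eq_zero
      intro j _
      exact absurd j.2 (by omega)
    rw [this, map_zero] at h1
    exact absurd h1 (by decide)
  unfold Circuit.size
  omega

/-- every depth-five circuit over `F₂` computing `IMM_{n,n}` has size at least `2^{c √n}` -/
theorem lower : ∃ c : ℝ, 0 < c ∧ ∀ (n : ℕ) [NeZero n] (Cc : Circuit F2 (Var n n)),
    Cc.value = IMM F2 n n → (2 : ℝ) ^ (c * Real.sqrt n) ≤ Cc.size := by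
  obtain ⟨C', hC'⟩ := count
  -- make the constant at least one
  obtain ⟨C, hC1, hC⟩ : ∃ C : ℕ, 1 ≤ C ∧ CountC C := by
    exact ⟨C' + 1, by omega, CountC.succ hC'⟩
  obtain ⟨B, hB⟩ : ∃ B : ℕ, B = C ^ 2 + 4 := ⟨_, rfl⟩
  obtain ⟨n0, hn0⟩ : ∃ n0 : ℕ, n0 = 176 * B ^ 2 := ⟨_, rfl⟩
  have hn0pos : 0 < n0 := by rw [hn0, hB]; positivity
  refine ⟨1 / (14 * C + n0), by positivity, ?_⟩
  intro n _ Cc hCc
  have hn1 : 1 ≤ n := Nat.one_le_iff_ne_zero.2 (NeZero.ne n)
  have hden : (0 : ℝ) < 14 * C + n0 := by positivity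
  by_cases hsmall : n < n0
  · have h2 := size_ge_two Cc hCc
    have hle : 1 / (14 * (C : ℝ) + n0) * Real.sqrt n ≤ 1 := by
      have hs : Real.sqrt n ≤ n0 := by
        rw [Real.sqrt_le_left (by positivity)]
        have h1 : (n : ℝ) ≤ n0 := by exact_mod_cast hsmall.le
        have h2 : (1 : ℝ) ≤ n0 := by exact_mod_cast hn0pos
        nlinarith
      rw [div_mul_eq_mul_div, one_mul, div_le_one hden]
      have : (0 : ℝ) ≤ 14 * C := by positivity
      linarith
    calc (2 : ℝ) ^ (1 / (14 * (C : ℝ) + n0) * Real.sqrt n) ≤ 2 ^ (1 : ℝ) :=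
          Real.rpow_le_rpow_of_exponent_le (by norm_num) hle
      _ = 2 := by rw [Real.rpow_one]
      _ ≤ Cc.size := by exact_mod_cast h2
  · push Not at hsmall
    -- the largest admissible power of two
    have hex : ∃ s : ℕ, n < 32 * (2 ^ (s + 1)) ^ 2 + 24 * 2 ^ (s + 1) := by
      refine ⟨n, ?_⟩
      have h1 : n < 2 ^ n := Nat.lt_two_pow_self
      have h2 : 2 ^ n ≤ 2 ^ (n + 1) := Nat.pow_le_pow_right (by norm_num) (by omega)
      omega
    classical
    obtain ⟨s, hs, hmin⟩ : ∃ s, n < 32 * (2 ^ (s + 1)) ^ 2 + 24 * 2 ^ (s + 1) ∧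
        ∀ t < s, ¬ n < 32 * (2 ^ (t + 1)) ^ 2 + 24 * 2 ^ (t + 1) :=
      ⟨Nat.find hex, Nat.find_spec hex, fun t ht => Nat.find_min hex ht⟩
    obtain ⟨u, hu⟩ : ∃ u, u = 2 ^ s := ⟨_, rfl⟩
    have hupos : 1 ≤ u := by rw [hu]; exact Nat.one_le_two_pow
    have hlt : n < 128 * u ^ 2 + 48 * u := by
      have : 32 * (2 ^ (s + 1)) ^ 2 + 24 * 2 ^ (s + 1) = 128 * u ^ 2 + 48 * u := by
        rw [hu, pow_succ]; ring
      omega
    have hlt' : n < 176 * u ^ 2 := by nlinarith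
    have huB : B ≤ u := by
      by_contra hcon
      push Not at hcon
      have : u ^ 2 ≤ B ^ 2 := Nat.pow_le_pow_left hcon.le 2
      omega
    have hu4 : 4 ≤ u := by rw [hB] at huB; omega
    have hs2 : 2 ≤ s := by
      by_contra hcon
      push Not at hcon
      have : 2 ^ s ≤ 2 ^ 1 := Nat.pow_le_pow_right (by norm_num) (by omega)
      omega
    have hge : 32 * u ^ 2 + 24 * u ≤ n := by
      have := hmin (s - 1) (by omega)
      have e : s - 1 + 1 = s := by omega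
      rw [e, ← hu] at this
      omega
    -- number of blocks
    obtain ⟨k, hk⟩ : ∃ k, k = 2 * u / C ^ 2 := ⟨_, rfl⟩
    have hC2pos : 0 < C ^ 2 := by positivity
    have hCu : C ^ 2 ≤ u := by omega
    have hk1 : k * C ^ 2 ≤ 2 * u := by rw [hk]; exact Nat.div_mul_le_self _ _
    have hk2 : 2 * u < (k + 1) * C ^ 2 := by
      rw [hk, add_mul, one_mul]
      have := Nat.div_add_mod (2 * u) (C ^ 2)
      have h2 := Nat.mod_lt (2 * u) hC2pos
      rw [mul_comm] at this
      omega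
    have hk3 : u ≤ k * C ^ 2 := by nlinarith
    have hk0 : 1 ≤ k := by
      by_contra hcon
      have : k = 0 := by omega
      rw [this] at hk3
      omega
    have hku : k ≤ 2 * u := le_trans (Nat.le_mul_of_pos_right k hC2pos) hk1
    have hkey := key hC (s := s) (k := k) (r := 2 * (C * k)) (n := n) hs2 (by rw [← hu]; exact hge)
      (by
        rw [← hu]
        have : k * (16 * u + 1) ≤ 2 * u * (16 * u + 1) := Nat.mul_le_mul_right _ hku
        nlinarith)
      (by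
        rw [← hu]
        have : 2 * (C * k) * (2 * (C * k)) = 4 * (k * C ^ 2) * k := by ring
        rw [this]
        nlinarith) Cc hCc
    have h3 : 2 ^ (C * k) ≤ Cc.n2 + Cc.n4 := by
      have e : 2 ^ (2 * (C * k)) = 2 ^ (C * k) * 2 ^ (C * k) := by rw [two_mul, pow_add]
      rw [e] at hkey
      exact Nat.le_of_mul_le_mul_left hkey (by positivity)
    have h4 : 2 ^ (C * k) ≤ Cc.size := by unfold Circuit.size; omega
    have h5 : 1 / (14 * (C : ℝ) + n0) * Real.sqrt n ≤ (C * k : ℕ) := by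
      have hsq : Real.sqrt n ≤ 14 * u := by
        rw [Real.sqrt_le_left (by positivity)]
        have : (n : ℝ) ≤ 176 * (u : ℝ) ^ 2 := by exact_mod_cast hlt'.le
        nlinarith [sq_nonneg (u : ℝ)]
      have hCr : (1 : ℝ) ≤ C := by exact_mod_cast hC1
      have h6 : (u : ℝ) ≤ C * (C * k : ℕ) := by
        have : u ≤ C * (C * k) := by nlinarith
        exact_mod_cast this
      rw [div_mul_eq_mul_div, one_mul, div_le_iff₀ hden]
      have h7 : (0 : ℝ) ≤ ((C * k : ℕ) : ℝ) := by positivity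
      have h8 : (0 : ℝ) ≤ n0 := by positivity
      nlinarith [mul_nonneg h7 h8]
    calc (2 : ℝ) ^ (1 / (14 * (C : ℝ) + n0) * Real.sqrt n) ≤ 2 ^ ((C * k : ℕ) : ℝ) :=
          Real.rpow_le_rpow_of_exponent_le (by norm_num) h5
      _ = ((2 ^ (C * k) : ℕ) : ℝ) := by rw [Real.rpow_natCast]; push_cast; ring
      _ ≤ Cc.size := by exact_mod_cast h4

end Vale.Agent.P346
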