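import Vale.Agent.Lib.P346.Block

/-! Dimension count, biorthogonal systems and the tensor power bound. -/

namespace Vale.Agent.P346

open Finset

variable {V : Type} [Fintype V] [DecidableEq V]

/-- number of points of given weight range -/
lemma card_wt_eq (j : ℕ) :
    (univ.filter fun x : Pt V => wt x = j).card = (Fintype.card V).choose j := by
  rw [← Finset.card_univ (α := V), ← Finset.card_powersetCard]
  apply Finset.card_bij (fun x _ => supp x)
  · intro x hx
    rw [Finset.mem_powersetCard]
    exact ⟨Finset.subset_univ _, (Finset.mem_filter.1 hx).2⟩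
  · intro x _ y _ hxy
    apply zer_inj
    ext i
    have : i ∈ supp x ↔ i ∈ supp y := by rw [hxy]
    simp only [supp, mem_filter, mem_univ, true_and] at this
    simp only [zer, mem_filter, mem_univ, true_and]
    tauto
  · intro S hS
    refine ⟨fun i => if i ∈ S then 1 else 0, ?_, ?_⟩
    · refine Finset.mem_filter.2 ⟨Finset.mem_univ _, ?_⟩
      have : supp (fun i => if i ∈ S then (1 : F2) else 0) = S := by
        ext i; simp [supp]
      rw [wt_eq, this]; exact (Finset.mem_powersetCard.1 hS).2
    · ext i; simp [supp]

lemma card_wt_lt (m : ℕ) :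
    (univ.filter fun x : Pt V => wt x < m).card = ∑ i ∈ range m, (Fintype.card V).choose i := by
  have : (univ.filter fun x : Pt V => wt x < m)
      = (range m).biUnion fun i => univ.filter fun x : Pt V => wt x = i := by
    ext x; simp
  rw [this, Finset.card_biUnion]
  · simp [card_wt_eq]
  · intro i _ j _ hij
    simp only [Finset.disjoint_left, mem_filter, mem_univ, true_and]
    intro x h1 h2
    exact hij (h1.symm.trans h2)

lemma card_wt_ge (m : ℕ) :
    (univ.filter fun x : Pt V => Fintype.card V < wt x + m).card
      = ∑ i ∈ range m, (Fintype.card V).choose i := by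
  rw [← card_wt_lt m]
  apply Finset.card_bij (fun x _ => fun i => 1 + x i)
  · intro x hx
    simp only [mem_filter, mem_univ, true_and] at hx ⊢
    have h1 : supp (fun i => 1 + x i) = zer x := by
      ext i
      simp only [supp, zer, mem_filter, mem_univ, true_and]
      rcases F2_or (x i) with h | h <;> rw [h] <;> decide
    have := zer_card x
    rw [wt_eq, h1]
    omega
  · intro x _ y _ hxy
    funext i
    have := congrFun hxy i
    simpa using this
  · intro y hy
    refine ⟨fun i => 1 + y i, ?_, ?_⟩
    · simp only [mem_filter, mem_univ, true_and] at hy ⊢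
      have h1 : supp (fun i => 1 + y i) = zer y := by
        ext i
        simp only [supp, zer, mem_filter, mem_univ, true_and]
        rcases F2_or (y i) with h | h <;> rw [h] <;> decide
      have := zer_card y
      rw [wt_eq (fun i => 1 + y i), h1]
      omega
    · funext i
      rcases F2_or (y i) with h | h <;> simp [h] <;> decide

/-- lower bound for the dimension of `Deg` -/
lemma finrank_Deg_ge (a : ℕ) :
    ∑ i ∈ range (a + 1), (Fintype.card V).choose i ≤ Module.finrank F2 (Deg V a) := by
  classical
  rw [← card_wt_ge]
  -- restriction map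
  let U : Finset (Pt V) := univ.filter fun x : Pt V => Fintype.card V < wt x + (a + 1)
  let R : (Deg V a) →ₗ[F2] (U → F2) :=
    (LinearMap.funLeft F2 F2 (fun u : U => (u : Pt V))) ∘ₗ (Deg V a).subtype
  have hsurj : Function.Surjective R := by
    rw [← LinearMap.range_eq_top, eq_top_iff, ← Pi.basisFun F2 U |>.span_eq, Submodule.span_le]
    rintro _ ⟨u, rfl⟩
    have hu : Fintype.card V ≤ wt (u : Pt V) + a := by
      have := u.2
      simp only [U, mem_filter, mem_univ, true_and] at this
      omega
    obtain ⟨g, hg, hgx⟩ := interp a (u : Pt V) hu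
    refine ⟨⟨g, hg⟩, ?_⟩
    funext w
    have hw : Fintype.card V ≤ wt (w : Pt V) + a := by
      have := w.2
      simp only [U, mem_filter, mem_univ, true_and] at this
      omega
    show g (w : Pt V) = _
    rw [hgx _ hw, Pi.basisFun_apply, Pi.single_apply]
    congr 1
    exact propext ⟨fun h => Subtype.ext h, fun h => congrArg _ h⟩
  have h := LinearMap.finrank_le_finrank_of_surjective (f := R) hsurj
  rw [Module.finrank_fintype_fun_eq_card, Fintype.card_coe] at h
  exact h

/-- lower bound for the dimension of `W` -/
lemma finrank_WW_ge (a lo hi m : ℕ) (hm : hi + m = Fintype.card V + 1) :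
    ∑ i ∈ range (a + 1), (Fintype.card V).choose i ≤
      Module.finrank F2 (WW V a lo hi) + (∑ i ∈ range m, (Fintype.card V).choose i +
        ∑ i ∈ range lo, (Fintype.card V).choose i) := by
  classical
  let U : Finset (Pt V) := univ.filter fun x : Pt V => wt x < lo ∨ hi ≤ wt x
  let R : (Deg V a) →ₗ[F2] (U → F2) :=
    (LinearMap.funLeft F2 F2 (fun u : U => (u : Pt V))) ∘ₗ (Deg V a).subtype
  have h1 := LinearMap.finrank_range_add_finrank_ker R
  have h2 : Module.finrank F2 (LinearMap.range R) ≤ U.card := by
    have := Submodule.finrank_le (LinearMap.range R)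
    rwa [Module.finrank_fintype_fun_eq_card, Fintype.card_coe] at this
  have h3 : U.card ≤ ∑ i ∈ range m, (Fintype.card V).choose i +
        ∑ i ∈ range lo, (Fintype.card V).choose i := by
    rw [← card_wt_lt lo, ← card_wt_ge m]
    have : U ⊆ (univ.filter fun x : Pt V => Fintype.card V < wt x + m) ∪
        (univ.filter fun x : Pt V => wt x < lo) := by
      intro x hx
      simp only [U, mem_filter, mem_univ, true_and, Finset.mem_union] at hx ⊢
      rcases hx with h | h
      · right; exact h
      · left; omega
    exact (Finset.card_le_card this).trans (Finset.card_union_le _ _)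
  have h4 : Module.finrank F2 (LinearMap.ker R) ≤ Module.finrank F2 (WW V a lo hi) := by
    -- the kernel embeds in W
    let J : (LinearMap.ker R) →ₗ[F2] (WW V a lo hi) :=
      { toFun := fun h => ⟨h.1.1, h.1.2, fun x hx => by
          have hk := h.2
          rw [LinearMap.mem_ker] at hk
          exact congrFun hk ⟨x, by simpa [U] using hx⟩⟩
        map_add' := fun _ _ => rfl
        map_smul' := fun _ _ => rfl }
    have hJ : Function.Injective J := by
      intro x y hxy
      have : (x.1.1 : Pt V → F2) = y.1.1 := congrArg (fun z => z.1) hxy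
      exact Subtype.ext (Subtype.ext this)
    exact LinearMap.finrank_le_finrank_of_injective hJ
  have h5 := finrank_Deg_ge (V := V) a
  omega

/-- a biorthogonal system -/
lemma exists_biorth {a θ lo hi : ℕ} (hθ : θ + a = Fintype.card V) (f : Pt V → F2)
    (hf0 : ∀ x, lo ≤ wt x → wt x < θ → f x = 0) (hf1 : ∀ x, θ ≤ wt x → wt x < hi → f x = 1) :
    ∃ g h : Fin (Module.finrank F2 (WW V a lo hi)) → (Pt V → F2),
      (∀ i, g i ∈ Deg V a) ∧ (∀ i, h i ∈ Deg V a) ∧
      ∀ i j, ∑ x, f x * (g i x * h j x) = if i = j then 1 else 0 := by
  classical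
  -- bilinear form
  let B : (Deg V a) →ₗ[F2] (WW V a lo hi) →ₗ[F2] F2 :=
    LinearMap.mk₂ F2 (fun g h => ∑ x, f x * ((g : Pt V → F2) x * (h : Pt V → F2) x))
      (by intro g g' h; simp only [Submodule.coe_add, Pi.add_apply, ← Finset.sum_add_distrib]
          exact Finset.sum_congr rfl fun x _ => by ring)
      (by intro c g h; simp only [Submodule.coe_smul, Pi.smul_apply, smul_eq_mul, Finset.mul_sum]
          exact Finset.sum_congr rfl fun x _ => by ring)
      (by intro g h h'; simp only [Submodule.coe_add, Pi.add_apply, ← Finset.sum_add_distrib]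
          exact Finset.sum_congr rfl fun x _ => by ring)
      (by intro c g h; simp only [Submodule.coe_smul, Pi.smul_apply, smul_eq_mul, Finset.mul_sum]
          exact Finset.sum_congr rfl fun x _ => by ring)
  have hinj : Function.Injective B.flip := by
    rw [← LinearMap.ker_eq_bot, Submodule.eq_bot_iff]
    intro h hh
    rw [LinearMap.mem_ker] at hh
    apply Subtype.ext
    apply nondeg hθ f hf0 hf1 h.2
    intro g hg
    exact LinearMap.congr_fun hh ⟨g, hg⟩
  have hsurj : Function.Surjective B := LinearMap.flip_injective_iff₂.1 hinj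
  let b := Module.finBasis F2 (WW V a lo hi)
  choose g hg using fun i => hsurj (b.coord i)
  refine ⟨fun i => g i, fun j => b j, fun i => (g i).2, fun j => (b j).2.1, ?_⟩
  intro i j
  have := LinearMap.congr_fun (hg i) (b j)
  have h2 : B (g i) (b j) = ∑ x, f x * ((g i : Pt V → F2) x * ((b j : WW V a lo hi) : Pt V → F2) x) := rfl
  rw [h2] at this
  rw [this]
  simp [Module.Basis.coord_apply, Finsupp.single_apply, eq_comm]

end Vale.Agent.P346
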