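import Vale.Agent.Lib.P346.Rank

/-! The tensor power bound. -/

namespace Vale.Agent.P346

open Finset

variable {V : Type} [Fintype V] [DecidableEq V]

/-- the `c`-th block of a point -/
def blk {k : ℕ} (x : Pt (Fin k × V)) (c : Fin k) : Pt V := fun i => x (c, i)

lemma blk_mem {k : ℕ} (c : Fin k) {D : ℕ} {g : Pt V → F2} (hg : g ∈ Deg V D) :
    (fun x : Pt (Fin k × V) => g (blk x c)) ∈ Deg (Fin k × V) D :=
  Deg_comp (⟨fun i => (c, i), fun _ _ h => (Prod.mk.inj h).2⟩ : V ↪ Fin k × V) hg

lemma prod_blk_mem {k : ℕ} {D : ℕ} (g : Fin k → Pt V → F2) (hg : ∀ c, g c ∈ Deg V D) :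
    (fun x : Pt (Fin k × V) => ∏ c, g c (blk x c)) ∈ Deg (Fin k × V) (k * D) := by
  have h := Deg_prod (V := Fin k × V) (univ : Finset (Fin k)) D
    (fun c => fun x : Pt (Fin k × V) => g c (blk x c)) (fun c _ => blk_mem c (hg c))
  rw [Finset.card_univ, Fintype.card_fin] at h
  convert h using 1
  funext x
  rw [Finset.prod_apply]

/-- Fubini for products over blocks -/
lemma sum_prod_blk {k : ℕ} (F : Fin k → Pt V → F2) :
    ∑ x : Pt (Fin k × V), ∏ c, F c (blk x c) = ∏ c, ∑ y, F c y := by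
  classical
  rw [Finset.prod_univ_sum]
  rw [Fintype.piFinset_univ]
  apply Fintype.sum_equiv (Equiv.curry (Fin k) V F2)
  intro x
  rfl

theorem tensor_bound {k a θ lo hi D : ℕ} (hθ : θ + a = Fintype.card V) (f : Pt V → F2)
    (hf0 : ∀ x, lo ≤ wt x → wt x < θ → f x = 0) (hf1 : ∀ x, θ ≤ wt x → wt x < hi → f x = 1)
    (G : Pt (Fin k × V) → F2) (hG : G ∈ Deg (Fin k × V) D)
    (hD : D + k * (2 * a) < k * Fintype.card V) :
    (Module.finrank F2 (WW V a lo hi)) ^ k ≤
      (univ.filter fun x : Pt (Fin k × V) => G x ≠ ∏ c, f (blk x c)).card := by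
  classical
  obtain ⟨ρ, hρ, g, h, hg, hh, hgh⟩ : ∃ ρ, ρ = Module.finrank F2 (WW V a lo hi) ∧
      ∃ g h : Fin ρ → (Pt V → F2), (∀ i, g i ∈ Deg V a) ∧ (∀ i, h i ∈ Deg V a) ∧
        ∀ i j, ∑ x, f x * (g i x * h j x) = if i = j then 1 else 0 := by
    obtain ⟨g, h, hg, hh, hgh⟩ := exists_biorth hθ f hf0 hf1
    exact ⟨_, rfl, g, h, hg, hh, hgh⟩
  rw [← hρ]
  let gg : (Fin k → Fin ρ) → Pt (Fin k × V) → F2 := fun I x => ∏ c, g (I c) (blk x c)
  let hhh : (Fin k → Fin ρ) → Pt (Fin k × V) → F2 := fun J x => ∏ c, h (J c) (blk x c)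
  have hgg : ∀ I, gg I ∈ Deg (Fin k × V) (k * a) := fun I => prod_blk_mem _ fun c => hg _
  have hhh' : ∀ J, hhh J ∈ Deg (Fin k × V) (k * a) := fun J => prod_blk_mem _ fun c => hh _
  let P : Pt (Fin k × V) → F2 := fun x => ∏ c, f (blk x c)
  have h1 : ∀ I J, ∑ x, P x * (gg I x * hhh J x) = if I = J then 1 else 0 := by
    intro I J
    have : ∀ x, P x * (gg I x * hhh J x)
        = ∏ c, f (blk x c) * (g (I c) (blk x c) * h (J c) (blk x c)) := by
      intro x
      simp only [P, gg, hhh, Finset.prod_mul_distrib]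
    simp only [this]
    rw [sum_prod_blk (fun c y => f y * (g (I c) y * h (J c) y))]
    simp only [hgh]
    by_cases hIJ : I = J
    · subst hIJ; simp
    · rw [if_neg hIJ]
      obtain ⟨c, hc⟩ : ∃ c, I c ≠ J c := by
        by_contra hcon
        push Not at hcon
        exact hIJ (funext hcon)
      exact Finset.prod_eq_zero (Finset.mem_univ c) (if_neg hc)
  have h2 : ∀ I J, ∑ x, G x * (gg I x * hhh J x) = 0 := by
    intro I J
    have hmem : (G * (gg I * hhh J)) ∈ Deg (Fin k × V) (D + (k * a + k * a)) :=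
      Deg_mul hG (Deg_mul (hgg I) (hhh' J))
    have := sum_eq_zero (V := Fin k × V) (D := D + (k * a + k * a)) (by
      rw [Fintype.card_prod, Fintype.card_fin]
      calc D + (k * a + k * a) = D + k * (2 * a) := by ring
        _ < _ := hD) hmem
    exact this
  let E : Finset (Pt (Fin k × V)) := univ.filter fun x => G x ≠ P x
  have h3 : ∀ I J, ∑ x ∈ E, gg I x * hhh J x = if I = J then 1 else 0 := by
    intro I J
    have h4 : ∑ x, (P x + G x) * (gg I x * hhh J x) = if I = J then 1 else 0 := by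
      simp only [add_mul, Finset.sum_add_distrib, h1, h2, add_zero]
    rw [← h4]
    rw [← Finset.sum_subset (Finset.subset_univ E)]
    · apply Finset.sum_congr rfl
      intro x hx
      have hne : G x ≠ P x := (Finset.mem_filter.1 hx).2
      have : P x + G x = 1 := by
        rcases F2_or (G x) with h0 | h0 <;> rcases F2_or (P x) with h0' | h0' <;>
          rw [h0, h0'] at hne ⊢
        · exact absurd rfl hne
        · decide
        · decide
        · exact absurd rfl hne
      rw [this, one_mul]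
    · intro x _ hx
      have heq : G x = P x := by
        by_contra hne
        exact hx (Finset.mem_filter.2 ⟨Finset.mem_univ x, hne⟩)
      rw [heq, CharTwo.add_self_eq_zero, zero_mul]
  let A : Matrix (Fin k → Fin ρ) E F2 := Matrix.of fun I x => gg I x
  let Bm : Matrix E (Fin k → Fin ρ) F2 := Matrix.of fun x J => hhh J x
  have hAB : A * Bm = 1 := by
    ext I J
    rw [Matrix.mul_apply, Matrix.one_apply, ← h3 I J]
    exact Finset.sum_coe_sort E (fun x => gg I x * hhh J x)
  have hr : (A * Bm).rank ≤ A.rank := Matrix.rank_mul_le_left A Bm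
  rw [hAB, Matrix.rank_one, Fintype.card_fun, Fintype.card_fin, Fintype.card_fin] at hr
  have hw := Matrix.rank_le_card_width A
  rw [Fintype.card_coe] at hw
  exact hr.trans hw

end Vale.Agent.P346
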